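import Mathlib
import Crest.Agent.Lib.KyFan.Basic

/-! Elementary facts on symmetric operators used for the Borsuk counterexample. -/

namespace Crest.Agent.R50

open Crest.Agent.Lib.KyFan Module Finset
open scoped RealInnerProductSpace

variable {E : Type*} [NormedAddCommGroup E] [InnerProductSpace ℝ E] [FiniteDimensional ℝ E]

/-- the real sign attached to an element of `ZMod 2` -/
noncomputable def sg (s : F2) : ℝ := if s = 0 then 1 else -1

@[simp] theorem sg_zero : sg 0 = 1 := by simp [sg]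
@[simp] theorem sg_one : sg 1 = -1 := by simp [sg]

theorem F2_cases (s : F2) : s = 0 ∨ s = 1 := by revert s; decide

theorem sg_succ (s : F2) : sg (s + 1) = -sg s := by
  rcases F2_cases s with rfl | rfl
  · simp
  · have : (1 + 1 : F2) = 0 := by decide
    simp [this]

theorem sg_ne_zero (s : F2) : sg s ≠ 0 := by
  rcases F2_cases s with rfl | rfl <;> simp

omit [FiniteDimensional ℝ E] in
theorem eigen_orth {T : E →L[ℝ] E} (hT : (T : E →ₗ[ℝ] E).IsSymmetric) {x y : E} {a b : ℝ}
    (hx : T x = a • x) (hy : T y = b • y) (hab : a ≠ b) : ⟪x, y⟫ = 0 := by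
  have h := hT x y
  simp only [ContinuousLinearMap.coe_coe, hx, hy, inner_smul_left, inner_smul_right] at h
  simp only [conj_trivial] at h
  have : (a - b) * ⟪x, y⟫ = 0 := by linarith
  exact (mul_eq_zero.1 this).resolve_left (sub_ne_zero.2 hab)

theorem exists_extreme {T : E →L[ℝ] E} (hT : (T : E →ₗ[ℝ] E).IsSymmetric) (h0 : T ≠ 0) :
    ∃ x, ‖x‖ = 1 ∧ ∃ s, T x = (sg s * ‖T‖) • x := by
  have hnt : Nontrivial E := by
    by_contra h
    rw [not_nontrivial_iff_subsingleton] at h
    exact h0 (by ext x; exact Subsingleton.elim _ _)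
  have hn : finrank ℝ E = finrank ℝ E := rfl
  have hne : Nonempty (Fin (finrank ℝ E)) := ⟨⟨0, Module.finrank_pos⟩⟩
  obtain ⟨i, -, hi⟩ := Finset.exists_max_image univ (fun i => |hT.eigenvalues hn i|) univ_nonempty
  set b := hT.eigenvectorBasis hn
  have hb : T (b i) = hT.eigenvalues hn i • b i := hT.apply_eigenvectorBasis hn i
  have hnorm : ‖T‖ = |hT.eigenvalues hn i| := by
    apply le_antisymm
    · apply ContinuousLinearMap.opNorm_le_bound _ (abs_nonneg _)
      intro y
      rw [← b.repr.norm_map (T y), ← b.repr.norm_map y]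
      apply le_of_sq_le_sq _ (by positivity)
      rw [mul_pow, EuclideanSpace.real_norm_sq_eq, EuclideanSpace.real_norm_sq_eq, Finset.mul_sum]
      apply Finset.sum_le_sum
      intro j _
      have := hT.eigenvectorBasis_apply_self_apply hn y j
      simp only [ContinuousLinearMap.coe_coe, RCLike.ofReal_real_eq_id, id] at this
      rw [this, mul_pow]
      apply mul_le_mul_of_nonneg_right _ (sq_nonneg _)
      rw [← sq_abs (hT.eigenvalues hn j)]
      exact pow_le_pow_left₀ (abs_nonneg _) (hi j (mem_univ _)) 2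
    · have := T.le_opNorm (b i)
      rwa [hb, norm_smul, b.orthonormal.1 i, mul_one, mul_one, Real.norm_eq_abs] at this
  refine ⟨b i, b.orthonormal.1 i, ?_⟩
  rcases le_total 0 (hT.eigenvalues hn i) with h | h
  · exact ⟨0, by rw [hb, hnorm, abs_of_nonneg h]; simp⟩
  · exact ⟨1, by rw [hb, hnorm, abs_of_nonpos h]; simp⟩

theorem exists_theta (V : Submodule ℝ E) {n N : ℕ} (hn : n ≤ finrank ℝ V)
    (hN : N = (n + 1).choose 2) :
    ∃ Θ : (Fin N → ℝ) →ₗ[ℝ] (E →L[ℝ] E), Function.Injective Θ ∧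
      (∀ v, (Θ v : E →ₗ[ℝ] E).IsSymmetric) ∧ ∀ v x, Θ v x ∈ V := by
  classical
  let b : Fin n → E := fun i => (stdOrthonormalBasis ℝ V (Fin.castLE hn i) : E)
  have hb : ∀ i j, ⟪b i, b j⟫ = if i = j then 1 else 0 := by
    intro i j
    have := (orthonormal_iff_ite.1 (stdOrthonormalBasis ℝ V).orthonormal) (Fin.castLE hn i)
      (Fin.castLE hn j)
    simp only [Fin.castLE_inj] at this
    rw [← this]
    rfl
  let σ : Sym2 (Fin n) ≃ Fin N := Fintype.equivFinOfCardEq (by rw [Sym2.card, hN]; simp)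
  let Θ : (Fin N → ℝ) →ₗ[ℝ] (E →L[ℝ] E) := ∑ i, ∑ j,
    (LinearMap.proj (σ s(i, j)) : (Fin N → ℝ) →ₗ[ℝ] ℝ).smulRight
      (InnerProductSpace.rankOne ℝ (b i) (b j))
  have hΘ : ∀ v x, Θ v x = ∑ i, ∑ j, (v (σ s(i, j)) * ⟪b j, x⟫) • b i := by
    intro v x
    simp [Θ, LinearMap.sum_apply, ContinuousLinearMap.sum_apply, mul_smul]
  refine ⟨Θ, ?_, ?_, ?_⟩
  · rw [injective_iff_map_eq_zero]
    intro v hv
    funext k
    obtain ⟨z, rfl⟩ := σ.surjective k
    induction z using Sym2.ind with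
    | _ i j =>
      have h : ⟪b i, Θ v (b j)⟫ = v (σ s(i, j)) := by
        rw [hΘ]
        simp [inner_sum, inner_smul_right, hb]
      rw [hv] at h
      simpa using h.symm
  · intro v x y
    simp only [ContinuousLinearMap.coe_coe, hΘ, inner_sum, sum_inner, inner_smul_left,
      inner_smul_right, conj_trivial]
    rw [Finset.sum_comm]
    refine Finset.sum_congr rfl fun i _ => Finset.sum_congr rfl fun j _ => ?_
    rw [Sym2.eq_swap, real_inner_comm x (b i)]
    ring
  · intro v x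
    rw [hΘ]
    refine V.sum_mem fun i _ => V.sum_mem fun j _ => V.smul_mem _ ?_
    exact Subtype.property _

theorem isClosed_exists_mem {X Y : Type*} [TopologicalSpace X] [TopologicalSpace Y] {K : Set Y}
    (hK : IsCompact K) {R : X → Y → Prop} (hR : IsClosed {p : X × Y | R p.1 p.2}) :
    IsClosed {v | ∃ x ∈ K, R v x} := by
  have : CompactSpace K := isCompact_iff_compactSpace.1 hK
  have h := isClosedMap_fst_of_compactSpace (X := X) (Y := K) _
    (hR.preimage (f := fun p : X × K => (p.1, (p.2 : Y))) (by fun_prop))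
  convert h using 1
  ext v
  simp

/-- the eigenspace of a continuous operator -/
abbrev eig (T : E →L[ℝ] E) (a : ℝ) : Submodule ℝ E := Module.End.eigenspace (T : E →ₗ[ℝ] E) a

omit [FiniteDimensional ℝ E] in
theorem mem_eig {T : E →L[ℝ] E} {a : ℝ} {x : E} : x ∈ eig T a ↔ T x = a • x :=
  Module.End.mem_eigenspace_iff

theorem trace_split (hE : finrank ℝ E = 4) {T : E →L[ℝ] E} (hT : (T : E →ₗ[ℝ] E).IsSymmetric)
    {μ : ℝ} (hμ : 0 < μ) : ∃ (e : Fin 4 → ℝ) (R : Finset (Fin 4)),
      finrank ℝ (eig T μ) + finrank ℝ (eig T (-μ)) + R.card = 4 ∧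
      LinearMap.trace ℝ E (T : E →ₗ[ℝ] E) =
        finrank ℝ (eig T μ) * μ - finrank ℝ (eig T (-μ)) * μ + ∑ i ∈ R, e i ∧
      finrank ℝ (eig T 0) = (R.filter (fun i => e i = 0)).card := by
  classical
  set e := hT.eigenvalues hE
  have hc : ∀ a : ℝ, (univ.filter (fun i => e i = a)).card = finrank ℝ (eig T a) := fun a =>
    hT.card_filter_eigenvalues_eq hE a
  have htr : LinearMap.trace ℝ E (T : E →ₗ[ℝ] E) = ∑ i, e i := hT.trace_eq_sum_eigenvalues hE
  refine ⟨e, univ.filter (fun i => e i ≠ μ ∧ e i ≠ -μ), ?_, ?_, ?_⟩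
  · rw [← hc, ← hc]
    simp only [card_filter, ← sum_add_distrib]
    rw [Finset.sum_congr rfl (g := fun _ => 1)]
    · simp
    · intro i _
      by_cases h1 : e i = μ
      · have : e i ≠ -μ := by rw [h1]; linarith
        simp [h1, this]
        linarith
      · by_cases h2 : e i = -μ
        · have : -μ ≠ μ := by linarith
          simp [h2, this]
        · simp [h1, h2]
  · rw [htr, ← hc, ← hc]
    simp only [card_filter, Nat.cast_sum, sum_mul, sum_filter, ← sum_sub_distrib,
      ← sum_add_distrib]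
    refine Finset.sum_congr rfl fun i _ => ?_
    by_cases h1 : e i = μ
    · have : μ ≠ -μ := by linarith
      simp [h1, this]
    · by_cases h2 : e i = -μ
      · have : -μ ≠ μ := by linarith
        simp [h2, this]
      · simp [h1, h2]
  · rw [← hc, filter_filter]
    congr 1
    ext i
    simp only [mem_filter, mem_univ, true_and]
    constructor
    · intro h
      refine ⟨⟨?_, ?_⟩, h⟩ <;> rw [h] <;> linarith
    · exact fun h => h.2

theorem trace_of_full (hE : finrank ℝ E = 4) {T : E →L[ℝ] E} (hT : (T : E →ₗ[ℝ] E).IsSymmetric)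
    {μ : ℝ} (hμ : 0 < μ) {p q : ℕ} (hp : p ≤ finrank ℝ (eig T μ))
    (hq : q ≤ finrank ℝ (eig T (-μ))) (hpq : p + q = 4) :
    LinearMap.trace ℝ E (T : E →ₗ[ℝ] E) = p * μ - q * μ := by
  obtain ⟨e, R, h1, h2, -⟩ := trace_split hE hT hμ
  have hR : R = ∅ := card_eq_zero.1 (by omega)
  have hp' : finrank ℝ (eig T μ) = p := by omega
  have hq' : finrank ℝ (eig T (-μ)) = q := by omega
  rw [h2, hR, hp', hq']; simp

theorem dims_of_slice (hE : finrank ℝ E = 4) {T : E →L[ℝ] E} (hT : (T : E →ₗ[ℝ] E).IsSymmetric)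
    {μ : ℝ} (hμ : 0 < μ) (hp : 1 ≤ finrank ℝ (eig T μ)) (hq : 2 ≤ finrank ℝ (eig T (-μ)))
    (htr : LinearMap.trace ℝ E (T : E →ₗ[ℝ] E) + μ = 0) :
    finrank ℝ (eig T μ) = 1 ∧ finrank ℝ (eig T (-μ)) = 2 ∧ finrank ℝ (eig T 0) = 1 := by
  obtain ⟨e, R, h1, h2, h3⟩ := trace_split hE hT hμ
  by_cases hR : R.card = 0
  · exfalso
    rw [card_eq_zero] at hR
    rw [h2, hR, sum_empty] at htr
    have : ((finrank ℝ (eig T μ) : ℝ) + 1 - finrank ℝ (eig T (-μ))) * μ = 0 := by linarith
    have h4 := (mul_eq_zero.1 this).resolve_right hμ.ne'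
    have h5 : finrank ℝ (eig T μ) + 1 = finrank ℝ (eig T (-μ)) := by
      have : ((finrank ℝ (eig T μ) : ℝ) + 1 = finrank ℝ (eig T (-μ))) := by linarith
      exact_mod_cast this
    rw [hR, card_empty] at h1
    omega
  · have hp' : finrank ℝ (eig T μ) = 1 := by omega
    have hq' : finrank ℝ (eig T (-μ)) = 2 := by omega
    obtain ⟨j, rfl⟩ := card_eq_one.1 (show R.card = 1 by omega)
    refine ⟨hp', hq', ?_⟩
    rw [h2, hp', hq', sum_singleton] at htr
    have : e j = 0 := by push_cast at htr; linarith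
    rw [h3, filter_singleton, if_pos this, card_singleton]

end Crest.Agent.R50
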