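import Mathlib
import Crest.Agent.R50.Ops

/-! Closed covers of the unit sphere of a four-dimensional space by ten sets without orthogonal
pairs: the dimension function on sets of colours. -/

namespace Crest.Agent.R50

open Crest.Agent.Lib.KyFan Module Finset
open scoped RealInnerProductSpace

/-- A cover of the unit sphere by ten compact sets, none containing two orthogonal vectors. -/
structure Cover (E : Type) [NormedAddCommGroup E] [InnerProductSpace ℝ E] where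
  F : Fin 10 → Set E
  cpt : ∀ i, IsCompact (F i)
  one : ∀ i, ∀ x ∈ F i, ‖x‖ = 1
  cov : ∀ x, ‖x‖ = 1 → ∃ i, x ∈ F i
  orth : ∀ i, ∀ x ∈ F i, ∀ y ∈ F i, ⟪x, y⟫ ≠ 0
  dim : finrank ℝ E = 4

variable {E : Type} [NormedAddCommGroup E] [InnerProductSpace ℝ E] [FiniteDimensional ℝ E]

/-- the set of parameters whose operator has an extreme eigenvector in `G a.1` with sign `a.2` -/
def PSet {N : ℕ} (Θ : (Fin N → ℝ) →ₗ[ℝ] (E →L[ℝ] E)) (G : Fin N → Set E) (a : Lab (Fin N)) :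
    Set (Fin N → ℝ) := {v | ∃ x ∈ G a.1, Θ v x = (sg a.2 * ‖Θ v‖) • x}

omit [FiniteDimensional ℝ E] in
theorem continuous_theta {N : ℕ} (Θ : (Fin N → ℝ) →ₗ[ℝ] (E →L[ℝ] E)) : Continuous Θ :=
  Θ.continuous_of_finiteDimensional

omit [FiniteDimensional ℝ E] in
theorem isClosed_PSet {N : ℕ} (Θ : (Fin N → ℝ) →ₗ[ℝ] (E →L[ℝ] E)) {G : Fin N → Set E}
    (hG : ∀ i, IsCompact (G i)) (a : Lab (Fin N)) : IsClosed (PSet Θ G a) := by
  have := continuous_theta Θ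
  apply isClosed_exists_mem (hG a.1) (R := fun v x => Θ v x = (sg a.2 * ‖Θ v‖) • x)
  apply isClosed_eq <;> fun_prop

omit [FiniteDimensional ℝ E] in
theorem theta_norm_pos {N : ℕ} {Θ : (Fin N → ℝ) →ₗ[ℝ] (E →L[ℝ] E)} (hΘ : Function.Injective Θ)
    {v : Fin N → ℝ} (hv : v ∈ sph N) : 0 < ‖Θ v‖ :=
  norm_pos_iff.2 fun h => sph_ne_zero hv (hΘ (h.trans (map_zero Θ).symm))

omit [FiniteDimensional ℝ E] in
theorem PSet_symm {N : ℕ} (Θ : (Fin N → ℝ) →ₗ[ℝ] (E →L[ℝ] E)) (G : Fin N → Set E)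
    (a : Lab (Fin N)) (v : Fin N → ℝ) (hv : v ∈ PSet Θ G a) : -v ∈ PSet Θ G (opp a) := by
  obtain ⟨x, hx, h⟩ := hv
  refine ⟨x, hx, ?_⟩
  simp [opp, sg_succ, h]

omit [FiniteDimensional ℝ E] in
theorem PSet_disj {N : ℕ} {Θ : (Fin N → ℝ) →ₗ[ℝ] (E →L[ℝ] E)} (hΘ : Function.Injective Θ)
    (hs : ∀ v, (Θ v : E →ₗ[ℝ] E).IsSymmetric) {G : Fin N → Set E}
    (orth : ∀ i, ∀ x ∈ G i, ∀ y ∈ G i, ⟪x, y⟫ ≠ 0) (a : Lab (Fin N)) (v : Fin N → ℝ)
    (hv : v ∈ sph N) (h1 : v ∈ PSet Θ G a) : v ∉ PSet Θ G (opp a) := by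
  obtain ⟨x, hx, h⟩ := h1
  rintro ⟨y, hy, h'⟩
  refine orth _ x hx y hy (eigen_orth (hs v) h h' ?_)
  simp only [opp, sg_succ]
  intro h
  have : sg a.2 * ‖Θ v‖ = 0 := by linarith
  exact mul_ne_zero (sg_ne_zero _) (theta_norm_pos hΘ hv).ne' this

theorem PSet_cover {N : ℕ} {Θ : (Fin N → ℝ) →ₗ[ℝ] (E →L[ℝ] E)} (hΘ : Function.Injective Θ)
    (hs : ∀ v, (Θ v : E →ₗ[ℝ] E).IsSymmetric) {V : Submodule ℝ E} (hV : ∀ v x, Θ v x ∈ V)
    {G : Fin N → Set E} (cov : ∀ x ∈ V, ‖x‖ = 1 → ∃ i, x ∈ G i) (v : Fin N → ℝ)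
    (hv : v ∈ sph N) : ∃ a, v ∈ PSet Θ G a := by
  have hpos := theta_norm_pos hΘ hv
  obtain ⟨x, hx, s, h⟩ := exists_extreme (hs v) (norm_pos_iff.1 hpos)
  have hxV : x ∈ V := by
    have := hV v x
    rwa [h, V.smul_mem_iff (mul_ne_zero (sg_ne_zero s) hpos.ne')] at this
  obtain ⟨i, hi⟩ := cov x hxV hx
  exact ⟨(i, s), x, hi, h⟩

namespace Cover

variable (c : Cover E)

open Classical in
/-- the colours meeting a subspace -/
noncomputable def C (V : Submodule ℝ E) : Finset (Fin 10) :=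
  univ.filter (fun i => ∃ x ∈ c.F i, x ∈ V)

omit [FiniteDimensional ℝ E] in
theorem mem_C {V : Submodule ℝ E} {i : Fin 10} : i ∈ c.C V ↔ ∃ x ∈ c.F i, x ∈ V := by
  simp [C]

/-- the largest dimension of a subspace coloured inside `S` -/
noncomputable def d (S : Finset (Fin 10)) : ℕ :=
  sSup {k | ∃ V : Submodule ℝ E, finrank ℝ V = k ∧ c.C V ⊆ S}

theorem bdd (S : Finset (Fin 10)) :
    BddAbove {k | ∃ V : Submodule ℝ E, finrank ℝ V = k ∧ c.C V ⊆ S} :=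
  ⟨finrank ℝ E, by rintro k ⟨V, rfl, -⟩; exact V.finrank_le⟩

theorem le_d {V : Submodule ℝ E} {S : Finset (Fin 10)} (h : c.C V ⊆ S) : finrank ℝ V ≤ c.d S :=
  le_csSup (c.bdd S) ⟨V, rfl, h⟩

theorem exists_d (S : Finset (Fin 10)) : ∃ V : Submodule ℝ E, finrank ℝ V = c.d S ∧ c.C V ⊆ S := by
  refine Nat.sSup_mem (s := {k | ∃ V : Submodule ℝ E, finrank ℝ V = k ∧ c.C V ⊆ S})
    ⟨0, ⊥, finrank_bot _ _, ?_⟩ (c.bdd S)
  intro i hi
  obtain ⟨x, hx, hx'⟩ := c.mem_C.1 hi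
  have := c.one i x hx
  rw [Submodule.mem_bot] at hx'
  simp [hx'] at this

theorem d_mono {S S' : Finset (Fin 10)} (h : S ⊆ S') : c.d S ≤ c.d S' := by
  obtain ⟨V, hV, hV'⟩ := c.exists_d S
  exact hV ▸ c.le_d (hV'.trans h)

omit [FiniteDimensional ℝ E] in
theorem disjoint_C {V W : Submodule ℝ E} (h : ∀ x ∈ V, ∀ y ∈ W, ⟪x, y⟫ = 0) :
    Disjoint (c.C V) (c.C W) := by
  rw [Finset.disjoint_left]
  intro i hi hi'
  obtain ⟨x, hx, hx'⟩ := c.mem_C.1 hi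
  obtain ⟨y, hy, hy'⟩ := c.mem_C.1 hi'
  exact c.orth i x hx y hy (h x hx' y hy')

theorem d_add_le {S S' : Finset (Fin 10)} (h : Disjoint S S') : c.d S + c.d S' ≤ 4 := by
  obtain ⟨V, hV, hV'⟩ := c.exists_d S
  obtain ⟨W, hW, hW'⟩ := c.exists_d S'
  have hbot : V ⊓ W = ⊥ := by
    rw [Submodule.eq_bot_iff]
    intro x hx
    by_contra h0
    have hn : ‖x‖ ≠ 0 := norm_ne_zero_iff.2 h0
    obtain ⟨i, hi⟩ := c.cov (‖x‖⁻¹ • x) (by rw [norm_smul, norm_inv, norm_norm, inv_mul_cancel₀ hn])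
    exact Finset.disjoint_left.1 h (hV' (c.mem_C.2 ⟨_, hi, V.smul_mem _ hx.1⟩))
      (hW' (c.mem_C.2 ⟨_, hi, W.smul_mem _ hx.2⟩))
  have h1 := Submodule.finrank_sup_add_finrank_inf_eq V W
  have h2 := (V ⊔ W).finrank_le
  rw [hbot, finrank_bot] at h1
  rw [c.dim] at h2
  omega

theorem d_le_of_subset {V : Submodule ℝ E} {S : Finset (Fin 10)} (h : S ⊆ c.C V) :
    c.d S ≤ finrank ℝ V := by
  have h1 := c.d_add_le (c.disjoint_C (V := V) (W := Vᗮ) fun x hx y hy => hy x hx)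
  have h2 := c.le_d (V := Vᗮ) subset_rfl
  have h3 := V.finrank_add_finrank_orthogonal
  have h4 := c.d_mono h
  rw [c.dim] at h3
  omega

theorem split (V₀ : Submodule ℝ E) {n : ℕ} (hn0 : 0 < n) (hn : n ≤ finrank ℝ V₀)
    (H : Finset (Fin 10)) (hH : H.card = (n + 1).choose 2) (hC : c.C V₀ ⊆ H)
    (S : Finset (Fin 10)) :
    H ⊆ c.C V₀ ∧ finrank ℝ V₀ ≤ c.d S + c.d (H \ S) := by
  classical
  obtain ⟨Θ, hΘ, hs, hV⟩ := exists_theta V₀ hn (N := (n + 1).choose 2) rfl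
  let e : Fin ((n + 1).choose 2) ≃ H := (H.equivFinOfCardEq hH).symm
  have hN : 0 < (n + 1).choose 2 := Nat.choose_pos (by omega)
  obtain ⟨v, hv, hv'⟩ := exists_facet_point hN (PSet Θ (fun k => c.F (e k)))
    (isClosed_PSet Θ fun k => c.cpt _)
    (PSet_cover hΘ hs hV (by
      intro x hx hx1
      obtain ⟨i, hi⟩ := c.cov x hx1
      exact ⟨e.symm ⟨i, hC (c.mem_C.2 ⟨x, hi, hx⟩)⟩, by simpa using hi⟩))
    (PSet_symm Θ _) (PSet_disj hΘ hs fun k => c.orth _)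
    (fun k => if (e k : Fin 10) ∈ S then 0 else 1)
  have hpos := theta_norm_pos hΘ hv
  set μ := ‖Θ v‖ with hμ
  have hle : ∀ a, a ≠ 0 → eig (Θ v) a ≤ V₀ := by
    intro a ha x hx
    have := hV v x
    rwa [mem_eig.1 hx, V₀.smul_mem_iff ha] at this
  have hp : ∀ i ∈ H, i ∈ S → i ∈ c.C (eig (Θ v) μ) := by
    intro i hi hiS
    obtain ⟨x, hx, hx'⟩ := hv' (e.symm ⟨i, hi⟩)
    simp only [Equiv.apply_symm_apply, hiS, if_true, sg_zero, one_mul] at hx hx'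
    exact c.mem_C.2 ⟨x, hx, mem_eig.2 hx'⟩
  have hm : ∀ i ∈ H, i ∉ S → i ∈ c.C (eig (Θ v) (-μ)) := by
    intro i hi hiS
    obtain ⟨x, hx, hx'⟩ := hv' (e.symm ⟨i, hi⟩)
    simp only [Equiv.apply_symm_apply, hiS, if_false, sg_one, neg_one_mul] at hx hx'
    exact c.mem_C.2 ⟨x, hx, mem_eig.2 hx'⟩
  have hCmono : ∀ {V W : Submodule ℝ E}, V ≤ W → c.C V ⊆ c.C W := by
    intro V W h i hi
    obtain ⟨x, hx, hx'⟩ := c.mem_C.1 hi
    exact c.mem_C.2 ⟨x, hx, h hx'⟩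
  constructor
  · intro i hi
    by_cases hiS : i ∈ S
    · exact hCmono (hle _ hpos.ne') (hp i hi hiS)
    · exact hCmono (hle _ (neg_ne_zero.2 hpos.ne')) (hm i hi hiS)
  · rw [← Submodule.finrank_add_inf_finrank_orthogonal (hle μ hpos.ne')]
    apply add_le_add
    · apply c.le_d
      intro i hi
      by_contra hiS
      refine Finset.disjoint_left.1 (c.disjoint_C (V := eig (Θ v) μ) (W := eig (Θ v) (-μ)) ?_) hi
        (hm i (hC (hCmono (hle μ hpos.ne') hi)) hiS)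
      intro x hx y hy
      exact eigen_orth (hs v) (mem_eig.1 hx) (mem_eig.1 hy) (by linarith)
    · apply c.le_d
      intro i hi
      have hiH := hC (hCmono inf_le_right hi)
      rw [mem_sdiff]
      refine ⟨hiH, fun hiS => ?_⟩
      exact Finset.disjoint_left.1 (c.disjoint_C (V := eig (Θ v) μ)
        (W := (eig (Θ v) μ)ᗮ ⊓ V₀) fun x hx y hy => hy.1 x hx) (hp i hiH hiS) hi

theorem d_compl (S : Finset (Fin 10)) : c.d S + c.d Sᶜ = 4 := by
  apply le_antisymm (c.d_add_le disjoint_compl_right)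
  have := (c.split ⊤ (n := 4) (by norm_num) (by simp [c.dim]) univ (by simp [Nat.choose])
    (subset_univ _) S).2
  rwa [finrank_top, c.dim, ← compl_eq_univ_sdiff] at this

theorem card_le_of_le_d {n : ℕ} (hn0 : 0 < n) (hn4 : (n + 1).choose 2 ≤ 10) {S : Finset (Fin 10)}
    (h : n ≤ c.d S) : (n + 1).choose 2 ≤ S.card := by
  by_contra hc
  obtain ⟨V, hV, hV'⟩ := c.exists_d S
  obtain ⟨H, hSH, hH⟩ := Finset.exists_superset_card_eq (s := S) (n := (n + 1).choose 2)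
    (by omega) (by simpa using hn4)
  have := (c.split V hn0 (hV ▸ h) H hH (hV'.trans hSH) ∅).1
  have := card_le_card (this.trans hV')
  omega

theorem d_le_one {S : Finset (Fin 10)} (h : S.card ≤ 2) : c.d S ≤ 1 := by
  by_contra hc
  have := c.card_le_of_le_d (n := 2) (by norm_num) (by simp [Nat.choose]) (S := S) (by omega)
  simp [Nat.choose] at this
  omega

theorem d_le_two {S : Finset (Fin 10)} (h : S.card ≤ 5) : c.d S ≤ 2 := by
  by_contra hc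
  have := c.card_le_of_le_d (n := 3) (by norm_num) (by simp [Nat.choose]) (S := S) (by omega)
  simp [Nat.choose] at this
  omega

theorem two_le_d {S : Finset (Fin 10)} (h : 5 ≤ S.card) : 2 ≤ c.d S := by
  have h1 := c.d_compl S
  have h2 := c.d_le_two (S := Sᶜ) (by rw [card_compl]; simp; omega)
  omega

theorem one_le_d {S : Finset (Fin 10)} (h : S.Nonempty) : 1 ≤ c.d S := by
  by_contra hc
  have h1 := c.d_compl S
  have := c.card_le_of_le_d (n := 4) (by norm_num) (by simp [Nat.choose]) (S := Sᶜ) (by omega)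
  rw [card_compl, Fintype.card_fin, show Nat.choose (4 + 1) 2 = 10 from rfl] at this
  have := h.card_pos
  omega

theorem exists_odd_triple {P : Finset (Fin 10)} (hP : P.card = 4) (h : c.d P ≤ 1) :
    ∃ T : Finset (Fin 10), T.card = 3 ∧ 2 ≤ c.d T := by
  have h1 := c.d_compl P
  obtain ⟨V, hV, hV'⟩ := c.exists_d Pᶜ
  have hc : Pᶜ.card = 6 := by rw [card_compl]; simp [hP]
  obtain ⟨T, hT, hT3⟩ := Finset.exists_subset_card_eq (s := Pᶜ) (n := 3) (by omega)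
  have := (c.split V (n := 3) (by norm_num) (by omega) Pᶜ (by simp [hc, Nat.choose]) hV' T).2
  by_cases h2 : 2 ≤ c.d T
  · exact ⟨T, hT3, h2⟩
  · exact ⟨Pᶜ \ T, by rw [card_sdiff_of_subset hT]; omega, by omega⟩

end Cover

end Crest.Agent.R50
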