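import Mathlib
import Crest.Agent.R50.Cover

/-! All projective lines are homologous: the value of a cocycle on a half great circle does not
depend on the circle. -/

namespace Crest.Agent.R50

open Crest.Agent.Lib.KyFan Module Finset
open scoped RealInnerProductSpace

variable {E : Type} [NormedAddCommGroup E] [InnerProductSpace ℝ E] [FiniteDimensional ℝ E]

/-- orthonormal pairs -/
def ON (x y : E) : Prop := ‖x‖ = 1 ∧ ‖y‖ = 1 ∧ ⟪x, y⟫ = 0

/-- points of the great circle through an orthonormal pair -/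
noncomputable def gc (x y : E) (t : ℝ) : E := Real.cos t • x + Real.sin t • y

section
omit [FiniteDimensional ℝ E]

theorem gc_inner {x y : E} (h : ON x y) (s t : ℝ) : ⟪gc x y s, gc x y t⟫ = Real.cos (s - t) := by
  obtain ⟨hx, hy, hxy⟩ := h
  have hyx : ⟪y, x⟫ = 0 := by rw [real_inner_comm, hxy]
  simp only [gc, inner_add_left, inner_add_right, inner_smul_left, inner_smul_right,
    real_inner_self_eq_norm_sq, hx, hy, hxy, hyx, conj_trivial, Real.cos_sub]
  ring

theorem gc_norm {x y : E} (h : ON x y) (t : ℝ) : ‖gc x y t‖ = 1 := by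
  have := gc_inner h t t
  rw [real_inner_self_eq_norm_sq, sub_self, Real.cos_zero] at this
  nlinarith [norm_nonneg (gc x y t)]

theorem gc_dist {x y : E} (h : ON x y) (s t : ℝ) : dist (gc x y s) (gc x y t) ≤ 2 * |s - t| := by
  rw [dist_eq_norm]
  have : gc x y s - gc x y t = (Real.cos s - Real.cos t) • x + (Real.sin s - Real.sin t) • y := by
    simp only [gc, sub_smul]; abel
  rw [this]
  refine (norm_add_le _ _).trans ?_
  rw [norm_smul, norm_smul, h.1, h.2.1, Real.norm_eq_abs, Real.norm_eq_abs]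
  linarith [Real.abs_cos_sub_cos_le s t, Real.abs_sin_sub_sin_le s t]

theorem gc_dist' (x y x' y' : E) (t : ℝ) :
    dist (gc x y t) (gc x' y' t) ≤ dist x x' + dist y y' := by
  rw [dist_eq_norm, dist_eq_norm, dist_eq_norm]
  have : gc x y t - gc x' y' t = Real.cos t • (x - x') + Real.sin t • (y - y') := by
    simp only [gc, smul_sub]; abel
  rw [this]
  refine (norm_add_le _ _).trans ?_
  rw [norm_smul, norm_smul, Real.norm_eq_abs, Real.norm_eq_abs]
  have h1 := Real.abs_cos_le_one t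
  have h2 := Real.abs_sin_le_one t
  nlinarith [norm_nonneg (x - x'), norm_nonneg (y - y')]

theorem gc_zero (x y : E) : gc x y 0 = x := by simp [gc]
theorem gc_pi (x y : E) : gc x y Real.pi = -x := by simp [gc]
theorem gc_half (x y : E) : gc x y (Real.pi / 2) = y := by simp [gc]

theorem gc_mem {V : Submodule ℝ E} {x y : E} (hx : x ∈ V) (hy : y ∈ V) (t : ℝ) : gc x y t ∈ V :=
  V.add_mem (V.smul_mem _ hx) (V.smul_mem _ hy)

end

theorem exists_orth (hE : finrank ℝ E = 4) (a b c : E) :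
    ∃ u : E, ‖u‖ = 1 ∧ ⟪a, u⟫ = 0 ∧ ⟪b, u⟫ = 0 ∧ ⟪c, u⟫ = 0 := by
  let f : E →ₗ[ℝ] ℝ × ℝ × ℝ :=
    (innerₛₗ ℝ a).prod ((innerₛₗ ℝ b).prod (innerₛₗ ℝ c))
  have := LinearMap.ker_ne_bot_of_finrank_lt (f := f) (by simp [hE])
  obtain ⟨y, hy, hy0⟩ := Submodule.exists_mem_ne_zero_of_ne_bot this
  have hn : ‖y‖ ≠ 0 := norm_ne_zero_iff.2 hy0
  replace hy : ⟪a, y⟫ = 0 ∧ ⟪b, y⟫ = 0 ∧ ⟪c, y⟫ = 0 :=
    ⟨congrArg (fun p => p.1) (LinearMap.mem_ker.1 hy), congrArg (fun p => p.2.1) (LinearMap.mem_ker.1 hy),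
      congrArg (fun p => p.2.2) (LinearMap.mem_ker.1 hy)⟩
  refine ⟨‖y‖⁻¹ • y, by rw [norm_smul, norm_inv, norm_norm, inv_mul_cancel₀ hn], ?_, ?_, ?_⟩ <;>
    simp [inner_smul_right, hy.1, hy.2.1, hy.2.2]

theorem exists_ON {V : Submodule ℝ E} (h : 2 ≤ finrank ℝ V) : ∃ x ∈ V, ∃ y ∈ V, ON x y := by
  let b := stdOrthonormalBasis ℝ V
  refine ⟨b ⟨0, by omega⟩, Subtype.property _, b ⟨1, by omega⟩, Subtype.property _,
    b.orthonormal.1 _, b.orthonormal.1 _, ?_⟩
  exact b.orthonormal.2 (i := ⟨0, by omega⟩) (j := ⟨1, by omega⟩) (by simp)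

/-- a function of orthonormal pairs which is locally constant is constant -/
theorem const_of_local (hE : finrank ℝ E = 4) (W : E → E → F2) {η : ℝ} (hη : 0 < η)
    (hW : ∀ x y x' y', ON x y → ON x' y' → dist x x' + dist y y' < η → W x y = W x' y')
    {x y x' y' : E} (h : ON x y) (h' : ON x' y') : W x y = W x' y' := by
  have path : ∀ γ₁ γ₂ : ℝ → E, Continuous γ₁ → Continuous γ₂ → (∀ t, ON (γ₁ t) (γ₂ t)) →
      W (γ₁ 0) (γ₂ 0) = W (γ₁ (Real.pi / 2)) (γ₂ (Real.pi / 2)) := by
    intro γ₁ γ₂ h1 h2 hon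
    have : IsLocallyConstant (fun t => W (γ₁ t) (γ₂ t)) := by
      rw [IsLocallyConstant.iff_eventually_eq]
      intro t
      have hc : Continuous (fun u => dist (γ₁ u) (γ₁ t) + dist (γ₂ u) (γ₂ t)) := by fun_prop
      have := hc.continuousAt (x := t) |>.eventually_lt continuousAt_const (g := fun _ => η)
        (by simpa using hη)
      filter_upwards [this] with u hu
      exact hW _ _ _ _ (hon u) (hon t) hu
    exact this.apply_eq_of_preconnectedSpace _ _
  have m1 : ∀ x y y' : E, ON x y → ON x y' → ⟪y, y'⟫ = 0 → W x y = W x y' := by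
    intro x y y' h h' hyy
    have := path (fun _ => x) (gc y y') continuous_const (by unfold gc; fun_prop) (fun t =>
      ⟨h.1, gc_norm ⟨h.2.1, h'.2.1, hyy⟩ t, by
        simp [gc, inner_add_right, inner_smul_right, h.2.2, h'.2.2]⟩)
    rwa [gc_zero, gc_half] at this
  have m2 : ∀ x x' y : E, ON x y → ON x' y → ⟪x, x'⟫ = 0 → W x y = W x' y := by
    intro x x' y h h' hxx
    have := path (gc x x') (fun _ => y) (by unfold gc; fun_prop) continuous_const (fun t =>
      ⟨gc_norm ⟨h.1, h'.1, hxx⟩ t, h.2.1, by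
        simp [gc, inner_add_left, inner_smul_left, h.2.2, h'.2.2]⟩)
    rwa [gc_zero, gc_half] at this
  have m1' : ∀ x y y' : E, ON x y → ON x y' → W x y = W x y' := by
    intro x y y' h h'
    obtain ⟨u, hu, u1, u2, u3⟩ := exists_orth hE x y y'
    rw [m1 x y u h ⟨h.1, hu, u1⟩ u2, m1 x y' u h' ⟨h.1, hu, u1⟩ u3]
  have m2' : ∀ x x' y : E, ON x y → ON x' y → W x y = W x' y := by
    intro x x' y h h'
    obtain ⟨u, hu, u1, u2, u3⟩ := exists_orth hE x x' y
    have : ON u y := ⟨hu, h.2.1, by rw [real_inner_comm, u3]⟩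
    rw [m2 x u y h this u1, m2 x' u y h' this u2]
  obtain ⟨u, hu, u1, u2, -⟩ := exists_orth hE x x' x
  rw [m1' x y u h ⟨h.1, hu, u1⟩, m2' x x' u ⟨h.1, hu, u1⟩ ⟨h'.1, hu, u2⟩,
    m1' x' u y' ⟨h'.1, hu, u2⟩ h']

/-- the potential function on an odd triangle -/
theorem exists_potential {ι : Type*} [DecidableEq ι] (s : ι → ι → F2) (hsymm : ∀ a b, s a b = s b a)
    (hdiag : ∀ a, s a a = 0) {a b e : ι} (hab : a ≠ b) (hbe : b ≠ e) (hae : a ≠ e)
    (hodd : s a b + s b e + s a e = 1) :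
    ∃ φ : ι → ι → F2, (∀ u ∈ ({a, b, e} : Finset ι), ∀ v ∈ ({a, b, e} : Finset ι), u ≠ v →
      φ u v + φ v u = 1) ∧
      ∀ u ∈ ({a, b, e} : Finset ι), ∀ u' ∈ ({a, b, e} : Finset ι), ∀ v ∈ ({a, b, e} : Finset ι),
        ∀ v' ∈ ({a, b, e} : Finset ι), u ≠ v → u ≠ v' → u' ≠ v → u' ≠ v' →
          s u u' + s v v' = φ u v + φ u' v' := by
  have hba := hab.symm
  have heb := hbe.symm
  have hea := hae.symm
  let g : ι → F2 := fun u => if u = a then s b e else if u = b then s a e else s a b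
  let φ : ι → ι → F2 := fun u v =>
    (if (u = a ∧ v = b) ∨ (u = b ∧ v = e) ∨ (u = e ∧ v = a) then 1 else 0) + g u + g v
  have h1 := hsymm b a
  have h2 := hsymm e b
  have h3 := hsymm e a
  refine ⟨φ, ?_, ?_⟩
  · intro u hu v hv huv
    simp only [mem_insert, mem_singleton] at hu hv
    generalize hx : s a b = x at *
    generalize hy : s b e = y at *
    generalize hz : s a e = z at *
    rcases hu with rfl | rfl | rfl <;> rcases hv with rfl | rfl | rfl <;>
      simp only [φ, g, ne_eq, not_true_eq_false, hab, hba, hbe, heb, hae, hea, hx, hy, hz,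
        and_self, and_true, and_false, or_self, or_true, or_false,
        if_true, if_false] at huv ⊢ <;>
      (clear * - hodd; revert x y z; decide)
  · intro u hu u' hu' v hv v' hv' n1 n2 n3 n4
    simp only [mem_insert, mem_singleton] at hu hv hu' hv'
    generalize hx : s a b = x at *
    generalize hy : s b e = y at *
    generalize hz : s a e = z at *
    rcases hu with rfl | rfl | rfl <;> rcases hv with rfl | rfl | rfl <;>
      rcases hu' with rfl | rfl | rfl <;> rcases hv' with rfl | rfl | rfl <;>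
      simp only [φ, g, ne_eq, not_true_eq_false, hab, hba, hbe, heb, hae, hea, hx, hy, hz, h1, h2,
        h3, hdiag, and_self, and_true, and_false, or_self, or_true, or_false,
        if_true, if_false] at n1 n2 n3 n4 ⊢ <;>
      (clear * - hodd; revert x y z; decide)

namespace Cover

variable (c : Cover E)

theorem loop (col : E → Fin 10) (hcol : ∀ x, ‖x‖ = 1 → x ∈ c.F (col x))
    (hneg : ∀ x, col (-x) = col x) (s : Fin 10 → Fin 10 → F2) (hsymm : ∀ a b, s a b = s b a)
    (hdiag : ∀ a, s a a = 0)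
    (hs : ∀ a b e, c.d {a, b, e} ≤ 1 → s a b + s b e + s a e = 0)
    {S : Finset (Fin 10)} (hS : 2 ≤ c.d S) (g : Fin 10 → F2)
    (hg : ∀ a ∈ S, ∀ b ∈ S, s a b = g a + g b)
    {a b e : Fin 10} (hab : a ≠ b) (hbe : b ≠ e) (hae : a ≠ e) (hT : 2 ≤ c.d {a, b, e})
    (hodd : s a b + s b e + s a e = 1) : False := by
  obtain ⟨ε, hε, hleb⟩ := exists_lebesgue (isCompact_sphere (0 : E) 1) c.F
    (fun i => (c.cpt i).isClosed)
  have tri : ∀ x y z : E, ‖x‖ = 1 → ‖y‖ = 1 → ‖z‖ = 1 → dist y x < ε → dist z x < ε →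
      s (col x) (col y) + s (col y) (col z) + s (col x) (col z) = 0 := by
    intro x y z hx hy hz h1 h2
    obtain ⟨v, hv, hv'⟩ := hleb x (by simpa using hx)
    apply hs
    have hv0 : v ≠ 0 := by
      rintro rfl
      simp at hv
    rw [← finrank_span_singleton (K := ℝ) hv0]
    apply c.d_le_of_subset
    intro i hi
    refine c.mem_C.2 ⟨v, ?_, Submodule.mem_span_singleton_self v⟩
    simp only [mem_insert, mem_singleton] at hi
    rcases hi with rfl | rfl | rfl
    · exact hv' x (by simpa using hε) _ (hcol x hx)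
    · exact hv' y h1 _ (hcol y hy)
    · exact hv' z h2 _ (hcol z hz)
  obtain ⟨δ, hδ, hδ'⟩ := (isCompact_iUnion (fun i => (c.cpt i).prod (c.cpt i))).exists_forall_le'
    (f := fun p : E × E => |⟪p.1, p.2⟫|) (a := 0) (by fun_prop) (by
      intro p hp
      obtain ⟨i, hi⟩ := Set.mem_iUnion.1 hp
      exact abs_pos.2 (c.orth i _ hi.1 _ hi.2))
  have far : ∀ x y : E, ‖x‖ = 1 → ‖y‖ = 1 → |⟪x, y⟫| < δ → col x ≠ col y := by
    intro x y hx hy h hc
    exact not_le.2 h (hδ' (x, y) (Set.mem_iUnion.2 ⟨col x, hcol x hx, hc ▸ hcol y hy⟩))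
  obtain ⟨M, hM⟩ := exists_nat_gt (Real.pi / (2 * min (ε / 4) δ))
  have hmin : 0 < min (ε / 4) δ := lt_min (by linarith) hδ
  have hM0 : (0 : ℝ) < M := lt_of_le_of_lt (by positivity) hM
  set h : ℝ := Real.pi / (2 * M) with hh
  have hh0 : 0 < h := by positivity
  have hh1 : h < min (ε / 4) δ := by
    rw [hh, div_lt_iff₀ (by positivity)]
    rw [div_lt_iff₀ (by positivity)] at hM
    linarith
  have hhε : h < ε / 4 := hh1.trans_le (min_le_left _ _)
  have hhδ : h < δ := hh1.trans_le (min_le_right _ _)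
  have hMh : (M : ℝ) * h = Real.pi / 2 := by rw [hh]; field_simp
  let q : E → E → ℕ → Fin 10 := fun x y k => col (gc x y (k * h))
  have q0 : ∀ x y, q x y 0 = col x := by intro x y; simp [q, gc_zero]
  have q2 : ∀ x y, q x y (M + M) = col x := by
    intro x y
    have : ((M + M : ℕ) : ℝ) * h = Real.pi := by push_cast; linarith
    simp only [q, this, gc_pi, hneg]
  let W : E → E → F2 := fun x y => ∑ k ∈ range (M + M), s (q x y k) (q x y (k + 1))
  have hW : ∀ x y x' y', ON x y → ON x' y' → dist x x' + dist y y' < ε / 2 → W x y = W x' y' := by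
    intro x y x' y' h1 h2 hd
    apply F2.eq_of_add_eq_zero
    simp only [W]
    rw [← sum_add_distrib, Finset.sum_congr rfl
      (g := fun k => s (q x y k) (q x' y' k) + s (q x y (k + 1)) (q x' y' (k + 1))),
      sum_range_telescope (fun k => s (q x y k) (q x' y' k)), q0, q0, q2, q2, F2.add_self]
    intro k _
    have d1 : dist (gc x y ((k + 1 : ℕ) * h)) (gc x y (k * h)) ≤ 2 * h := by
      refine (gc_dist h1 _ _).trans (le_of_eq ?_)
      push_cast
      rw [show ((k : ℝ) + 1) * h - k * h = h by ring, abs_of_pos hh0]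
    have d2 : ∀ t, dist (gc x' y' t) (gc x y t) < ε / 2 := fun t => by
      rw [dist_comm]; exact (gc_dist' _ _ _ _ _).trans_lt hd
    have d3 : dist (gc x' y' ((k + 1 : ℕ) * h)) (gc x y (k * h)) < ε := by
      have := dist_triangle (gc x' y' ((k + 1 : ℕ) * h)) (gc x y ((k + 1 : ℕ) * h)) (gc x y (k * h))
      linarith [d2 ((k + 1 : ℕ) * h)]
    have t1 := tri _ _ _ (gc_norm h1 _) (gc_norm h1 _) (gc_norm h2 _) (by linarith : _ < ε) d3
    have t2 := tri _ _ _ (gc_norm h1 _) (gc_norm h2 _) (gc_norm h2 _)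
      (by linarith [d2 (k * h)] : dist (gc x' y' (k * h)) (gc x y (k * h)) < ε) d3
    simp only [q]
    apply F2.eq_of_add_eq_zero
    have := F2.add_self (s (col (gc x y (k * h))) (col (gc x' y' ((k + 1 : ℕ) * h))))
    linear_combination (exp := 1) t1 + t2 - this
  obtain ⟨V, hV, hV'⟩ := c.exists_d S
  obtain ⟨x, hx, y, hy, hxy⟩ := exists_ON (hV ▸ hS : 2 ≤ finrank ℝ V)
  obtain ⟨V', hU, hU'⟩ := c.exists_d {a, b, e}
  obtain ⟨x', hx', y', hy', hxy'⟩ := exists_ON (hU ▸ hT : 2 ≤ finrank ℝ V')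
  have heq : W x y = W x' y' := const_of_local c.dim W (by linarith) hW hxy hxy'
  have hq : ∀ k, q x y k ∈ S := fun k =>
    hV' (c.mem_C.2 ⟨_, hcol _ (gc_norm hxy _), gc_mem hx hy _⟩)
  have hq' : ∀ k, q x' y' k ∈ ({a, b, e} : Finset (Fin 10)) := fun k =>
    hU' (c.mem_C.2 ⟨_, hcol _ (gc_norm hxy' _), gc_mem hx' hy' _⟩)
  have h0 : W x y = 0 := by
    simp only [W]
    rw [Finset.sum_congr rfl (fun k _ => hg _ (hq k) _ (hq (k + 1))),
      sum_range_telescope (fun k => g (q x y k)), q0, q2, F2.add_self]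
  have h1 : W x' y' = 1 := by
    obtain ⟨φ, hφ1, hφ2⟩ := exists_potential s hsymm hdiag hab hbe hae hodd
    have ne : ∀ k l : ℕ, |(k : ℝ) - l| ≤ 1 → q x' y' k ≠ q x' y' (M + l) := by
      intro k l hkl
      apply far _ _ (gc_norm hxy' _) (gc_norm hxy' _)
      rw [gc_inner hxy']
      have : (k : ℝ) * h - ((M + l : ℕ) : ℝ) * h = ((k : ℝ) - l) * h - Real.pi / 2 := by
        push_cast; linarith
      rw [this, Real.cos_sub_pi_div_two]
      refine (Real.abs_sin_le_abs).trans_lt ?_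
      rw [abs_mul, abs_of_pos hh0]
      nlinarith
    simp only [W]
    rw [sum_range_add, ← sum_add_distrib, Finset.sum_congr rfl
      (g := fun k => φ (q x' y' k) (q x' y' (M + k)) + φ (q x' y' (k + 1)) (q x' y' (M + (k + 1)))),
      sum_range_telescope (fun k => φ (q x' y' k) (q x' y' (M + k))), q2, ← q0 x' y']
    · exact hφ1 _ (hq' _) _ (hq' _) (ne 0 0 (by simp))
    · intro k _
      exact hφ2 _ (hq' _) _ (hq' _) _ (hq' _) _ (hq' _) (ne k k (by simp)) (ne k (k + 1) (by simp))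
        (ne (k + 1) k (by simp)) (ne (k + 1) (k + 1) (by simp))
  rw [h0, h1] at heq
  exact zero_ne_one heq

end Cover

end Crest.Agent.R50
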