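import Mathlib

/-! The finite search: no graph on eight vertices satisfies the local constraints coming from the
two-graph of a ten-colouring. -/

namespace Crest.Agent.R50

/-- the constraint on four vertices, given the six edge indicators -/
def ok4 (ab ac ad bc bd cd : Bool) : Bool :=
  (ab || ac || ad || bc || bd || cd) &&
  ((ab ^^ ac ^^ ad ^^ bc ^^ bd ^^ cd) ||
    (!(ab ^^ ac ^^ bc) && !(ab ^^ ad ^^ bd) && !(ac ^^ ad ^^ cd)) ||
    !(ab || ac || bc) || !(ab || ad || bd) || !(ac || ad || cd) || !(bc || bd || cd))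

/-- the constraint on five vertices -/
def ok5 (ab ac ad ae bc bd be cd ce de : Bool) : Bool :=
  (ab ^^ ac ^^ bc) || (ab ^^ ad ^^ bd) || (ab ^^ ae ^^ be) || (ac ^^ ad ^^ cd) ||
    (ac ^^ ae ^^ ce) || (ad ^^ ae ^^ de)

def tab4 : ℕ := 7611003646393413630
def tab5 : ℕ := 179769313486231590772930519078902473361797697894230657262432490343921819731665439390209166453431425984231857764290355561775407357341501747841465071786515699258081909365863204011617527106014392225564469915523099420462915764846028358146645885459422125828110221639912754565687404134206608715501284206773754888190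

def bitN (g p : ℕ) : ℕ := Nat.land 1 (Nat.shiftRight g p)

def idxN (g : ℕ) : List ℕ → ℕ
  | [] => 0
  | p :: l => Nat.add (bitN g p) (Nat.mul 2 (idxN g l))

def evalC (g : ℕ) (c : List ℕ × Bool) : Bool :=
  Nat.beq (bitN (cond c.2 tab4 tab5) (idxN g c.1)) 1

def allC (g : ℕ) : List (List ℕ × Bool) → Bool
  | [] => true
  | c :: l => cond (evalC g c) (allC g l) false

def force (n : ℕ) (f : ℕ → Bool) : Bool :=
  match n with
  | 0 => f 0
  | m + 1 => f (Nat.succ m)

theorem force_eq (n : ℕ) (f : ℕ → Bool) : force n f = f n := by cases n <;> rfl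

def srch : List (List (List ℕ × Bool)) → ℕ → ℕ → Bool
  | [], _, _ => false
  | cs :: L, w, g => force (Nat.mul 2 w) fun w' =>
      cond (cond (allC g cs) (srch L w' g) true)
        (force (Nat.add g w) fun g' => cond (allC g' cs) (srch L w' g') true) false

def levels : List (List (List ℕ × Bool)) := [
  [],
  [],
  [([5, 4, 3, 2, 1, 0], true)],
  [],
  [],
  [([8, 7, 6, 2, 1, 0], true)],
  [([9, 7, 6, 4, 3, 0], true), ([9, 8, 6, 5, 3, 1], true), ([9, 8, 7, 5, 4, 2], true), ([9, 8, 7, 6, 5, 4, 3, 2, 1, 0], false)],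
  [],
  [],
  [([12, 11, 10, 2, 1, 0], true)],
  [([13, 11, 10, 4, 3, 0], true), ([13, 12, 10, 5, 3, 1], true), ([13, 12, 11, 5, 4, 2], true), ([13, 12, 11, 10, 5, 4, 3, 2, 1, 0], false)],
  [([14, 11, 10, 7, 6, 0], true), ([14, 12, 10, 8, 6, 1], true), ([14, 12, 11, 8, 7, 2], true), ([14, 13, 10, 9, 6, 3], true), ([14, 13, 11, 9, 7, 4], true), ([14, 13, 12, 9, 8, 5], true), ([14, 12, 11, 10, 8, 7, 6, 2, 1, 0], false), ([14, 13, 11, 10, 9, 7, 6, 4, 3, 0], false), ([14, 13, 12, 10, 9, 8, 6, 5, 3, 1], false), ([14, 13, 12, 11, 9, 8, 7, 5, 4, 2], false)],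
  [],
  [],
  [([17, 16, 15, 2, 1, 0], true)],
  [([18, 16, 15, 4, 3, 0], true), ([18, 17, 15, 5, 3, 1], true), ([18, 17, 16, 5, 4, 2], true), ([18, 17, 16, 15, 5, 4, 3, 2, 1, 0], false)],
  [([19, 16, 15, 7, 6, 0], true), ([19, 17, 15, 8, 6, 1], true), ([19, 17, 16, 8, 7, 2], true), ([19, 18, 15, 9, 6, 3], true), ([19, 18, 16, 9, 7, 4], true), ([19, 18, 17, 9, 8, 5], true), ([19, 17, 16, 15, 8, 7, 6, 2, 1, 0], false), ([19, 18, 16, 15, 9, 7, 6, 4, 3, 0], false), ([19, 18, 17, 15, 9, 8, 6, 5, 3, 1], false), ([19, 18, 17, 16, 9, 8, 7, 5, 4, 2], false)],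
  [([20, 16, 15, 11, 10, 0], true), ([20, 17, 15, 12, 10, 1], true), ([20, 17, 16, 12, 11, 2], true), ([20, 18, 15, 13, 10, 3], true), ([20, 18, 16, 13, 11, 4], true), ([20, 18, 17, 13, 12, 5], true), ([20, 19, 15, 14, 10, 6], true), ([20, 19, 16, 14, 11, 7], true), ([20, 19, 17, 14, 12, 8], true), ([20, 19, 18, 14, 13, 9], true), ([20, 17, 16, 15, 12, 11, 10, 2, 1, 0], false), ([20, 18, 16, 15, 13, 11, 10, 4, 3, 0], false), ([20, 18, 17, 15, 13, 12, 10, 5, 3, 1], false), ([20, 18, 17, 16, 13, 12, 11, 5, 4, 2], false), ([20, 19, 16, 15, 14, 11, 10, 7, 6, 0], false), ([20, 19, 17, 15, 14, 12, 10, 8, 6, 1], false), ([20, 19, 17, 16, 14, 12, 11, 8, 7, 2], false), ([20, 19, 18, 15, 14, 13, 10, 9, 6, 3], false), ([20, 19, 18, 16, 14, 13, 11, 9, 7, 4], false), ([20, 19, 18, 17, 14, 13, 12, 9, 8, 5], false)],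
  [],
  [],
  [([23, 22, 21, 2, 1, 0], true)],
  [([24, 22, 21, 4, 3, 0], true), ([24, 23, 21, 5, 3, 1], true), ([24, 23, 22, 5, 4, 2], true), ([24, 23, 22, 21, 5, 4, 3, 2, 1, 0], false)],
  [([25, 22, 21, 7, 6, 0], true), ([25, 23, 21, 8, 6, 1], true), ([25, 23, 22, 8, 7, 2], true), ([25, 24, 21, 9, 6, 3], true), ([25, 24, 22, 9, 7, 4], true), ([25, 24, 23, 9, 8, 5], true), ([25, 23, 22, 21, 8, 7, 6, 2, 1, 0], false), ([25, 24, 22, 21, 9, 7, 6, 4, 3, 0], false), ([25, 24, 23, 21, 9, 8, 6, 5, 3, 1], false), ([25, 24, 23, 22, 9, 8, 7, 5, 4, 2], false)],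
  [([26, 22, 21, 11, 10, 0], true), ([26, 23, 21, 12, 10, 1], true), ([26, 23, 22, 12, 11, 2], true), ([26, 24, 21, 13, 10, 3], true), ([26, 24, 22, 13, 11, 4], true), ([26, 24, 23, 13, 12, 5], true), ([26, 25, 21, 14, 10, 6], true), ([26, 25, 22, 14, 11, 7], true), ([26, 25, 23, 14, 12, 8], true), ([26, 25, 24, 14, 13, 9], true), ([26, 23, 22, 21, 12, 11, 10, 2, 1, 0], false), ([26, 24, 22, 21, 13, 11, 10, 4, 3, 0], false), ([26, 24, 23, 21, 13, 12, 10, 5, 3, 1], false), ([26, 24, 23, 22, 13, 12, 11, 5, 4, 2], false), ([26, 25, 22, 21, 14, 11, 10, 7, 6, 0], false), ([26, 25, 23, 21, 14, 12, 10, 8, 6, 1], false), ([26, 25, 23, 22, 14, 12, 11, 8, 7, 2], false), ([26, 25, 24, 21, 14, 13, 10, 9, 6, 3], false), ([26, 25, 24, 22, 14, 13, 11, 9, 7, 4], false), ([26, 25, 24, 23, 14, 13, 12, 9, 8, 5], false)],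
  [([27, 22, 21, 16, 15, 0], true), ([27, 23, 21, 17, 15, 1], true), ([27, 23, 22, 17, 16, 2], true), ([27, 24, 21, 18, 15, 3], true), ([27, 24, 22, 18, 16, 4], true), ([27, 24, 23, 18, 17, 5], true), ([27, 25, 21, 19, 15, 6], true), ([27, 25, 22, 19, 16, 7], true), ([27, 25, 23, 19, 17, 8], true), ([27, 25, 24, 19, 18, 9], true), ([27, 26, 21, 20, 15, 10], true), ([27, 26, 22, 20, 16, 11], true), ([27, 26, 23, 20, 17, 12], true), ([27, 26, 24, 20, 18, 13], true), ([27, 26, 25, 20, 19, 14], true), ([27, 23, 22, 21, 17, 16, 15, 2, 1, 0], false), ([27, 24, 22, 21, 18, 16, 15, 4, 3, 0], false), ([27, 24, 23, 21, 18, 17, 15, 5, 3, 1], false), ([27, 24, 23, 22, 18, 17, 16, 5, 4, 2], false), ([27, 25, 22, 21, 19, 16, 15, 7, 6, 0], false), ([27, 25, 23, 21, 19, 17, 15, 8, 6, 1], false), ([27, 25, 23, 22, 19, 17, 16, 8, 7, 2], false), ([27, 25, 24, 21, 19, 18, 15, 9, 6, 3], false), ([27, 25, 24, 22, 19, 18, 16, 9, 7, 4], false), ([27, 25, 24, 23, 19, 18, 17, 9, 8,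 5], false), ([27, 26, 22, 21, 20, 16, 15, 11, 10, 0], false), ([27, 26, 23, 21, 20, 17, 15, 12, 10, 1], false), ([27, 26, 23, 22, 20, 17, 16, 12, 11, 2], false), ([27, 26, 24, 21, 20, 18, 15, 13, 10, 3], false), ([27, 26, 24, 22, 20, 18, 16, 13, 11, 4], false), ([27, 26, 24, 23, 20, 18, 17, 13, 12, 5], false), ([27, 26, 25, 21, 20, 19, 15, 14, 10, 6], false), ([27, 26, 25, 22, 20, 19, 16, 14, 11, 7], false), ([27, 26, 25, 23, 20, 19, 17, 14, 12, 8], false), ([27, 26, 25, 24, 20, 19, 18, 14, 13, 9], false)]]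

theorem srch_true0 : srch levels 8 0 = true := by decide +kernel
theorem srch_true1 : srch levels 8 1 = true := by decide +kernel
theorem srch_true2 : srch levels 8 2 = true := by decide +kernel
theorem srch_true3 : srch levels 8 3 = true := by decide +kernel
theorem srch_true4 : srch levels 8 4 = true := by decide +kernel
theorem srch_true5 : srch levels 8 5 = true := by decide +kernel
theorem srch_true6 : srch levels 8 6 = true := by decide +kernel
theorem srch_true7 : srch levels 8 7 = true := by decide +kernel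

theorem srch_true (g : ℕ) (hg : g < 8) : srch levels 8 g = true := by
  interval_cases g
  exacts [srch_true0, srch_true1, srch_true2, srch_true3, srch_true4, srch_true5, srch_true6,
    srch_true7]

def wf : List (List (List ℕ × Bool)) → ℕ → Bool
  | [], _ => true
  | cs :: L, i => (cs.all fun c => c.1.all fun p => decide (p ≤ i)) && wf L (i + 1)

theorem bitN_eq (g p : ℕ) : bitN g p = (g.testBit p).toNat := by
  change 1 &&& (g >>> p) = _
  rw [Nat.testBit, Nat.one_and_eq_mod_two]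
  rcases Nat.mod_two_eq_zero_or_one (g >>> p) with h | h <;> simp [h]

theorem idxN_mod (G i : ℕ) (l : List ℕ) (h : ∀ p ∈ l, p ≤ i) :
    idxN (G % 2 ^ (i + 1)) l = idxN G l := by
  induction l with
  | nil => rfl
  | cons p l ih =>
    rw [idxN, idxN, ih (fun q hq => h q (List.mem_cons_of_mem _ hq)), bitN_eq, bitN_eq,
      Nat.testBit_mod_two_pow]
    have := h p (by simp)
    simp [Nat.lt_succ_of_le this]

theorem allC_of (g : ℕ) (cs : List (List ℕ × Bool)) (h : ∀ c ∈ cs, evalC g c = true) :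
    allC g cs = true := by
  induction cs with
  | nil => rfl
  | cons c l ih =>
    rw [allC, h c (by simp), cond_true, ih (fun q hq => h q (List.mem_cons_of_mem _ hq))]

theorem srch_sound (G : ℕ) : ∀ (L : List (List (List ℕ × Bool))) (i : ℕ), wf L i = true →
    (∀ cs ∈ L, ∀ c ∈ cs, evalC G c = true) → srch L (2 ^ i) (G % 2 ^ i) = false := by
  intro L
  induction L with
  | nil => intro i _ _; rfl
  | cons cs L ih =>
    intro i hwf hL
    simp only [wf, Bool.and_eq_true, List.all_eq_true, decide_eq_true_eq] at hwf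
    have h1 : allC (G % 2 ^ (i + 1)) cs = true := by
      apply allC_of
      intro c hc
      rw [evalC, idxN_mod G i _ (hwf.1 c hc)]
      exact hL cs (by simp) c hc
    have h2 := ih (i + 1) hwf.2 (fun q hq => hL q (List.mem_cons_of_mem _ hq))
    have h3 : Nat.mul 2 (2 ^ i) = 2 ^ (i + 1) := by
      change 2 * 2 ^ i = _
      ring
    rw [srch, force_eq, force_eq, h3]
    have h4 := Nat.mod_pow_succ (x := G) (b := 2) (k := i)
    rcases Nat.mod_two_eq_zero_or_one (G / 2 ^ i) with h | h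
    · rw [h, mul_zero, add_zero] at h4
      rw [← h4, h1, h2]; rfl
    · rw [h, mul_one] at h4
      have : Nat.add (G % 2 ^ i) (2 ^ i) = G % 2 ^ (i + 1) := h4.symm
      rw [this, h1, h2]
      cases (cond (allC (G % 2 ^ i) cs) (srch L (2 ^ (i + 1)) (G % 2 ^ i)) true) <;> rfl

def pos (a b : ℕ) : ℕ := a * (a - 1) / 2 + b

def mkLevel (a b : ℕ) : List (List ℕ × Bool) :=
  ((List.range b).flatMap fun c => (List.range c).map fun d =>
    ([pos a b, pos a c, pos a d, pos b c, pos b d, pos c d], true)) ++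
  ((List.range b).flatMap fun c => (List.range c).flatMap fun d => (List.range d).map fun e =>
    ([pos a b, pos a c, pos a d, pos a e, pos b c, pos b d, pos b e, pos c d, pos c e, pos d e],
      false))

theorem levels_eq :
    levels = ((List.range 8).flatMap fun a => (List.range a).map fun b => mkLevel a b).drop 3 := by
  decide +kernel

theorem tab4_spec : ∀ x1 x2 x3 x4 x5 x6 : Bool, ok4 x1 x2 x3 x4 x5 x6 = true →
    Nat.beq (bitN tab4 (x1.toNat + 2 * (x2.toNat + 2 * (x3.toNat + 2 * (x4.toNat + 2 *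
      (x5.toNat + 2 * (x6.toNat + 2 * 0))))))) 1 = true := by decide +kernel

theorem tab5_spec : ∀ x1 x2 x3 x4 x5 x6 x7 x8 x9 x10 : Bool,
    ok5 x1 x2 x3 x4 x5 x6 x7 x8 x9 x10 = true →
    Nat.beq (bitN tab5 (x1.toNat + 2 * (x2.toNat + 2 * (x3.toNat + 2 * (x4.toNat + 2 *
      (x5.toNat + 2 * (x6.toNat + 2 * (x7.toNat + 2 * (x8.toNat + 2 * (x9.toNat + 2 *
      (x10.toNat + 2 * 0))))))))))) 1 = true := by decide +kernel

theorem exists_code (f : ℕ → ℕ → Bool) :
    ∃ G : ℕ, ∀ a < 8, ∀ b < a, bitN G (pos a b) = (f a b).toNat := by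
  have h : ∀ a < 8, ∀ b < a, pos a b < 28 ∧ (List.range 8).findIdx (fun a' => pos a b < pos a' a') = a ∧
      pos a b - pos a 0 = b := by
    intro a ha b hb
    interval_cases a <;> interval_cases b <;> decide
  refine ⟨Nat.ofBits (fun p : Fin 28 => f ((List.range 8).findIdx (fun a' => (p : ℕ) < pos a' a'))
    (p - pos ((List.range 8).findIdx (fun a' => (p : ℕ) < pos a' a')) 0)), ?_⟩
  intro a ha b hb
  obtain ⟨h1, h2, h3⟩ := h a ha b hb
  rw [bitN_eq, Nat.testBit_ofBits_lt _ _ h1]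
  simp only [h2, h3]

theorem no_graph (f : ℕ → ℕ → Bool)
    (h4 : ∀ a < 8, ∀ b < a, ∀ c < b, ∀ d < c,
      ok4 (f a b) (f a c) (f a d) (f b c) (f b d) (f c d) = true)
    (h5 : ∀ a < 8, ∀ b < a, ∀ c < b, ∀ d < c, ∀ e < d,
      ok5 (f a b) (f a c) (f a d) (f a e) (f b c) (f b d) (f b e) (f c d) (f c e) (f d e) = true) :
    False := by
  obtain ⟨G, hG⟩ := exists_code f
  have := srch_sound G levels 3 (by decide +kernel) (by
    rw [levels_eq]
    intro cs hcs q hq
    replace hcs := List.mem_of_mem_drop hcs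
    simp only [List.mem_flatMap, List.mem_range, List.mem_map] at hcs
    obtain ⟨a, ha, b, hb, rfl⟩ := hcs
    simp only [mkLevel, List.mem_append, List.mem_flatMap, List.mem_range, List.mem_map] at hq
    rcases hq with ⟨c, hc, d, hd, rfl⟩ | ⟨c, hc, d, hd, e, he, rfl⟩
    · simp only [evalC, idxN, cond_true]
      rw [hG a ha b hb, hG a ha c (by omega), hG a ha d (by omega), hG b (by omega) c hc,
        hG b (by omega) d (by omega), hG c (by omega) d hd]
      exact tab4_spec _ _ _ _ _ _ (h4 a ha b hb c hc d hd)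
    · simp only [evalC, idxN, cond_false]
      rw [hG a ha b hb, hG a ha c (by omega), hG a ha d (by omega), hG a ha e (by omega),
        hG b (by omega) c hc, hG b (by omega) d (by omega), hG b (by omega) e (by omega),
        hG c (by omega) d hd, hG c (by omega) e (by omega), hG d (by omega) e he]
      exact tab5_spec _ _ _ _ _ _ _ _ _ _ (h5 a ha b hb c hc d hd e he))
  rw [show 2 ^ 3 = 8 from rfl, srch_true _ (Nat.mod_lt _ (by norm_num))] at this
  exact Bool.noConfusion this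

end Crest.Agent.R50
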