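import Mathlib
import Crest.Agent.R50.Cover

/-! The parity relations obtained by slicing the fundamental cycle of the sphere of symmetric
operators along the hypersurface where the second eigenvalue vanishes. -/

namespace Crest.Agent.R50

open Crest.Agent.Lib.KyFan Module Finset
open scoped RealInnerProductSpace

variable {E : Type} [NormedAddCommGroup E] [InnerProductSpace ℝ E] [FiniteDimensional ℝ E]

/-- signed label set with positive part `A` and negative part `D` -/
def lset (A D : Finset (Fin 10)) : Finset (Lab (Fin 10)) :=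
  univ.filter (fun a => if a.2 = 0 then a.1 ∈ A else a.1 ∈ D)

@[simp] theorem mem_lset_zero {A D : Finset (Fin 10)} {i : Fin 10} :
    ((i, 0) : Lab (Fin 10)) ∈ lset A D ↔ i ∈ A := by simp [lset]

@[simp] theorem mem_lset_one {A D : Finset (Fin 10)} {i : Fin 10} :
    ((i, 1) : Lab (Fin 10)) ∈ lset A D ↔ i ∈ D := by simp [lset]

theorem insert_lset_zero (A D : Finset (Fin 10)) (m : Fin 10) :
    insert (m, 0) (lset A D) = lset (insert m A) D := by
  ext ⟨i, s⟩
  rcases F2_cases s with rfl | rfl <;> simp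

theorem insert_lset_one (A D : Finset (Fin 10)) (m : Fin 10) :
    insert (m, 1) (lset A D) = lset A (insert m D) := by
  ext ⟨i, s⟩
  rcases F2_cases s with rfl | rfl <;> simp

theorem facet_eq_lset (A : Finset (Fin 10)) :
    facet (fun i => if i ∈ A then (0 : F2) else 1) = lset A Aᶜ := by
  ext ⟨i, s⟩
  rw [mem_facet]
  rcases F2_cases s with rfl | rfl <;> by_cases h : i ∈ A <;> simp [h]

namespace Cover

variable (c : Cover E)

/-- indicator of the colour sets containing a plane -/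
noncomputable def o (S : Finset (Fin 10)) : F2 := if 2 ≤ c.d S then 1 else 0

theorem key_aux : ∃ cc : Finset (Fin 10) → Finset (Fin 10) → Finset (Fin 10) → F2,
    (∀ A B D m, A.Nonempty → B.Nonempty → 2 ≤ c.d D → m ∉ A → m ∉ B → m ∉ D →
      (∀ i, i ≠ m → i ∈ A ∨ i ∈ B ∨ i ∈ D) →
      cc A (insert m B) D = cc (insert m A) B D + cc A B (insert m D)) ∧
    (∀ A D m, A.Nonempty → 2 ≤ c.d D → m ∉ A → D = (insert m A)ᶜ →
      cc A {m} D = c.o (insert m A) + c.o A) ∧
    ∀ A B D, A.Nonempty → 2 ≤ c.d D → 2 ≤ c.d B → cc A B D = 0 := by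
  classical
  obtain ⟨Θ, hΘ, hs, -⟩ := exists_theta (⊤ : Submodule ℝ E) (n := 4) (N := 10)
    (by simp [c.dim]) rfl
  have hΘc := continuous_theta Θ
  let t : (Fin 10 → ℝ) → ℝ := fun v => LinearMap.trace ℝ E (Θ v : E →ₗ[ℝ] E) + ‖Θ v‖
  have htc : Continuous t := by
    refine Continuous.add ?_ hΘc.norm
    exact ((LinearMap.trace ℝ E).comp
      ((ContinuousLinearMap.coeLM ℝ).comp Θ)).continuous_of_finiteDimensional
  let Mid : Fin 10 → Set (Fin 10 → ℝ) := fun j =>
    {v | ∃ x ∈ c.F j, ∀ y, ‖y‖ = 1 → ‖Θ v x‖ ≤ ‖Θ v y‖}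
  have hMid : ∀ j, IsClosed (Mid j) := by
    intro j
    apply isClosed_exists_mem (c.cpt j) (R := fun v x => ∀ y, ‖y‖ = 1 → ‖Θ v x‖ ≤ ‖Θ v y‖)
    simp only [Set.ofPred_forall]
    refine isClosed_iInter fun y => isClosed_iInter fun _ => isClosed_le ?_ ?_ <;> fun_prop
  have hMidcov : ∀ v, ∃ j, v ∈ Mid j := by
    intro v
    have hnt : Nontrivial E := Module.nontrivial_of_finrank_pos (R := ℝ) (by rw [c.dim]; norm_num)
    obtain ⟨x, hx, hx'⟩ := (isCompact_sphere (0 : E) 1).exists_isMinOn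
      (NormedSpace.sphere_nonempty.2 zero_le_one) (f := fun x => ‖Θ v x‖) (by fun_prop)
    obtain ⟨j, hj⟩ := c.cov x (by simpa using hx)
    exact ⟨j, x, hj, fun y hy => hx' (by simpa using hy)⟩
  choose kap hkap using hMidcov
  let G : Fin 10 ⊕ Bool → Set (Fin 10 → ℝ) :=
    Sum.elim Mid (fun b => if b then {v | 0 ≤ t v} else {v | t v ≤ 0})
  have hG : ∀ k, IsClosed (G k) := by
    rintro (j | b)
    · exact hMid j
    · cases b
      · exact isClosed_le htc continuous_const
      · exact isClosed_le continuous_const htc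
  obtain ⟨lam, I, hI1, hI2, hI3⟩ := kyFan (N := 10) (by norm_num) G hG (PSet Θ c.F)
    (isClosed_PSet Θ c.cpt)
    (PSet_cover hΘ hs (V := ⊤) (fun _ _ => trivial) (fun x _ hx => c.cov x hx))
    (PSet_symm Θ _) (PSet_disj hΘ hs c.orth)
  have hIsum : ∀ {ι : Type} (s : Finset ι) (φ : ι → Co (Fin 10 → ℝ)),
      I (fun l => ∑ i ∈ s, φ i l) = ∑ i ∈ s, I (φ i) := by
    intro ι s φ
    rw [← map_sum]
    congr 1
    funext l
    rw [Finset.sum_apply]
  let χ : (Fin 10 → ℝ) → F2 := fun v => if 0 < t v then 1 else 0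
  let K : Finset (Fin 10) → Co (Fin 10 → ℝ) := fun B l => ind B (l.map kap)
  let L : Finset (Lab (Fin 10)) → Co (Fin 10 → ℝ) := fun Λ l => ind Λ (l.map lam)
  let c' : Finset (Fin 10) → Finset (Lab (Fin 10)) → F2 := fun B Λ =>
    I (cup (cob (pt χ)) (cup (K B) (L Λ)))
  have hK : ∀ B, cob (K B) = fun l => ∑ j ∈ Bᶜ, K (insert j B) l := by
    intro B; funext l
    exact (cob_map kap (ind B) l).trans (cob_ind _ _)
  have hL : ∀ Λ, cob (L Λ) = fun l => ∑ j ∈ Λᶜ, L (insert j Λ) l := by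
    intro Λ; funext l
    exact (cob_map lam (ind Λ) l).trans (cob_ind _ _)
  -- membership in eigenspaces
  have hP0 : ∀ v i, v ∈ PSet Θ c.F (i, 0) → i ∈ c.C (eig (Θ v) ‖Θ v‖) := by
    rintro v i ⟨x, hx, hx'⟩
    exact c.mem_C.2 ⟨x, hx, mem_eig.2 (by simpa using hx')⟩
  have hP1 : ∀ v i, v ∈ PSet Θ c.F (i, 1) → i ∈ c.C (eig (Θ v) (-‖Θ v‖)) := by
    rintro v i ⟨x, hx, hx'⟩
    exact c.mem_C.2 ⟨x, hx, mem_eig.2 (by simpa using hx')⟩
  have hdisj : ∀ v (a b : ℝ), a ≠ b → Disjoint (c.C (eig (Θ v) a)) (c.C (eig (Θ v) b)) :=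
    fun v a b hab => c.disjoint_C fun x hx y hy =>
      eigen_orth (hs v) (mem_eig.1 hx) (mem_eig.1 hy) hab
  have hLmem : ∀ Λ l, L Λ l ≠ 0 → ∀ a ∈ Λ, ∃ x ∈ l, lam x = a := by
    intro Λ l h a ha
    rw [← (ind_ne_zero h).2] at ha
    simpa using ha
  have hKmem : ∀ B l, K B l ≠ 0 → ∀ a ∈ B, ∃ x ∈ l, kap x = a := by
    intro B l h a ha
    rw [← (ind_ne_zero h).2] at ha
    simpa using ha
  -- the vanishing statement
  have van : ∀ B Λ, c' B Λ ≠ 0 → ∀ i₀, (i₀, 0) ∈ Λ → ∀ D, 2 ≤ c.d D → (∀ i ∈ D, (i, 1) ∈ Λ) →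
      c.d B ≤ 1 ∧ (∀ j ∈ B, ∀ s, (j, s) ∉ Λ) ∧ ∀ i, (i, 0) ∈ Λ → (i, 1) ∉ Λ := by
    intro B Λ h i₀ hi₀ D hD hDΛ
    obtain ⟨l, hl, -, -, v, hv, hv'⟩ := hI2 _ h
    obtain ⟨l₁, l₂, s₁, s₂, h₁, h₂⟩ := cup_ne_zero hl
    obtain ⟨l₃, l₄, s₃, s₄, h₃, h₄⟩ := cup_ne_zero h₂
    have hpos := theta_norm_pos hΘ hv
    have hΛ : ∀ a ∈ Λ, v ∈ PSet Θ c.F a := by
      intro a ha
      obtain ⟨x, hx, rfl⟩ := hLmem _ _ h₄ a ha
      exact (hv' x (s₂ (s₄ hx))).1
    have hB : ∀ j ∈ B, v ∈ Mid j := by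
      intro j hj
      obtain ⟨x, hx, rfl⟩ := hKmem _ _ h₃ j hj
      exact (hv' x (s₂ (s₃ hx))).2 (Sum.inl (kap x)) (hkap x)
    have ht : t v = 0 := by
      have aux : ∀ x ∈ l, ∀ y ∈ l, 0 < t x → ¬ 0 < t y → t v = 0 := by
        intro x hx y hy h1 h2
        exact le_antisymm ((hv' y hy).2 (Sum.inr false) (not_lt.1 h2))
          ((hv' x hx).2 (Sum.inr true) h1.le)
      obtain ⟨x, hx, y, hy, hxy⟩ := cob_pt_ne_zero h₁
      by_cases h1 : 0 < t x <;> by_cases h2 : 0 < t y
      · simp [χ, h1, h2] at hxy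
      · exact aux x (s₁ hx) y (s₁ hy) h1 h2
      · exact aux y (s₁ hy) x (s₁ hx) h2 h1
      · simp [χ, h1, h2] at hxy
    obtain ⟨-, -, d0⟩ := dims_of_slice c.dim (hs v) hpos
      ((c.one_le_d (singleton_nonempty i₀)).trans
        (c.d_le_of_subset (singleton_subset_iff.2 (hP0 v i₀ (hΛ _ hi₀)))))
      (hD.trans (c.d_le_of_subset fun i hi => hP1 v i (hΛ _ (hDΛ i hi)))) ht
    have hB0 : B ⊆ c.C (eig (Θ v) 0) := by
      intro j hj
      obtain ⟨x, hx, hx'⟩ := hB j hj
      refine c.mem_C.2 ⟨x, hx, mem_eig.2 ?_⟩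
      obtain ⟨y, hy, hy0⟩ := Submodule.exists_mem_ne_zero_of_ne_bot (p := eig (Θ v) 0)
        (by intro h; rw [h, finrank_bot] at d0; exact zero_ne_one d0)
      have hn : ‖y‖ ≠ 0 := norm_ne_zero_iff.2 hy0
      have := hx' (‖y‖⁻¹ • y) (by rw [norm_smul, norm_inv, norm_norm, inv_mul_cancel₀ hn])
      rw [map_smul, mem_eig.1 hy] at this
      simpa using this
    refine ⟨d0 ▸ c.d_le_of_subset hB0, ?_, ?_⟩
    · intro j hj s hjs
      rcases F2_cases s with rfl | rfl
      · exact Finset.disjoint_left.1 (hdisj v 0 _ hpos.ne) (hB0 hj) (hP0 v j (hΛ _ hjs))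
      · exact Finset.disjoint_left.1 (hdisj v 0 (-‖Θ v‖) (by linarith)) (hB0 hj)
          (hP1 v j (hΛ _ hjs))
    · intro i h0 h1
      exact Finset.disjoint_left.1 (hdisj v _ (-‖Θ v‖) (by linarith)) (hP0 v i (hΛ _ h0))
        (hP1 v i (hΛ _ h1))
  -- the cycle relation
  have rel : ∀ B Λ, B.Nonempty → Λ.Nonempty →
      ∑ j ∈ Bᶜ, c' (insert j B) Λ + ∑ a ∈ Λᶜ, c' B (insert a Λ) = 0 := by
    intro B Λ hB hΛ
    have h0 := hI1 (cup (cob (pt χ)) (cup (K B) (L Λ)))
    have e : cob (cup (cob (pt χ)) (cup (K B) (L Λ))) = fun l =>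
        ∑ j ∈ Bᶜ, cup (cob (pt χ)) (cup (K (insert j B)) (L Λ)) l +
        ∑ a ∈ Λᶜ, cup (cob (pt χ)) (cup (K B) (L (insert a Λ))) l := by
      funext l
      rw [cob_cup (cob_nil _) (cup_nil _ _), funext (cob_cob (pt χ)), cup_zero_left, zero_add,
        funext (cob_cup (φ := K B) (ψ := L Λ) (ind_nil hB) (ind_nil hΛ)), cup_add_right, hK, hL,
        funext (cup_sum_left Bᶜ (fun j => K (insert j B)) (L Λ)),
        funext (cup_sum_right Λᶜ (K B) (fun a => L (insert a Λ))), cup_sum_right, cup_sum_right]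
    rw [e] at h0
    rw [← h0, ← hIsum, ← hIsum, ← map_add]
    rfl
  -- the base values
  have fac : ∀ A : Finset (Fin 10), I (cup (pt χ) (L (lset A Aᶜ))) = c.o A := by
    intro A
    have h1 := hI3 (fun i => if i ∈ A then (0 : F2) else 1)
    rw [facet_eq_lset] at h1
    have h2 : I (fun l => c.o A * L (lset A Aᶜ) l) = c.o A := by
      rcases F2_cases (c.o A) with h | h <;> rw [h]
      · simp only [zero_mul]
        exact map_zero I
      · simp only [one_mul]
        exact h1
    rw [← h2]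
    apply F2.eq_of_add_eq_zero
    rw [← map_add]
    by_contra h
    obtain ⟨l, hl, hne, -, v, hv, hv'⟩ := hI2 _ h
    obtain ⟨x, r, rfl⟩ := List.exists_cons_of_ne_nil hne
    rw [Pi.add_apply, cup_pt_cons, ← add_mul] at hl
    have hΛ : ∀ a ∈ lset A Aᶜ, v ∈ PSet Θ c.F a := by
      intro a ha
      obtain ⟨x, hx, rfl⟩ := hLmem _ _ (right_ne_zero_of_mul hl) a ha
      exact (hv' x hx).1
    have hpos := theta_norm_pos hΘ hv
    have htr := trace_of_full c.dim (hs v) hpos (p := c.d A) (q := c.d Aᶜ)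
      (c.d_le_of_subset fun i hi => hP0 v i (hΛ _ (mem_lset_zero.2 hi)))
      (c.d_le_of_subset fun i hi => hP1 v i (hΛ _ (mem_lset_one.2 hi))) (c.d_compl A)
    have hsum : (c.d A : ℝ) + c.d Aᶜ = 4 := by exact_mod_cast c.d_compl A
    have htv : t v = (2 * (c.d A : ℝ) - 3) * ‖Θ v‖ := by
      simp only [t, htr]
      have : (c.d Aᶜ : ℝ) = 4 - c.d A := by linarith
      rw [this]; ring
    apply left_ne_zero_of_mul hl
    by_cases hA : 2 ≤ c.d A
    · have hA' : (2 : ℝ) ≤ c.d A := by exact_mod_cast hA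
      have : 0 < t x := by
        by_contra hc
        have : t v ≤ 0 := (hv' x (by simp)).2 (Sum.inr false) (not_lt.1 hc)
        nlinarith
      simp [χ, o, this, hA, F2.add_self]
    · have hA' : (c.d A : ℝ) ≤ 1 := by exact_mod_cast (by omega : c.d A ≤ 1)
      have : ¬ 0 < t x := by
        intro hc
        have : 0 ≤ t v := (hv' x (by simp)).2 (Sum.inr true) hc.le
        nlinarith
      simp [χ, o, this, hA]
  have base : ∀ Λ : Finset (Lab (Fin 10)), Λ.Nonempty →
      ∑ j, c' {j} Λ = ∑ a ∈ Λᶜ, I (cup (pt χ) (L (insert a Λ))) := by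
    intro Λ hΛ
    have h0 := hI1 (cup (pt χ) (L Λ))
    have hu : (fun l => ∑ j, cup (K {j}) (L Λ) l) = L Λ := by
      funext l
      rw [← cup_sum_left]
      have : (fun m => ∑ j, K {j} m) = pt (fun _ => 1) := by
        funext m
        match m with
        | [] => simp [K, ind]
        | [x] => simp [K, ind]
        | x :: y :: r =>
          rw [pt_cons_cons]
          apply Finset.sum_eq_zero
          intro j _
          apply if_neg
          rintro ⟨h1, h2⟩
          have := List.toFinset_card_of_nodup h1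
          rw [h2] at this
          simp at this
      rw [this]
      cases l with
      | nil => exact (ind_nil hΛ).symm
      | cons x l => rw [cup_pt_cons, one_mul]
    have e : cob (cup (pt χ) (L Λ)) = fun l =>
        ∑ j, cup (cob (pt χ)) (cup (K {j}) (L Λ)) l + ∑ a ∈ Λᶜ, cup (pt χ) (L (insert a Λ)) l := by
      funext l
      rw [cob_cup (φ := pt χ) (ψ := L Λ) (pt_nil _) (ind_nil hΛ), hL, cup_sum_right,
        ← cup_sum_right univ (cob (pt χ)) (fun j => cup (K {j}) (L Λ)), hu]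
    rw [e] at h0
    apply F2.eq_of_add_eq_zero
    rw [← h0, ← hIsum, ← hIsum, ← map_add]
    rfl
  refine ⟨fun A B D => c' B (lset A D), ?_, ?_, ?_⟩
  · intro A B D m hA hB hD hmA hmB hmD hall
    obtain ⟨i₀, hi₀⟩ := hA
    have h := rel B (lset A D) hB ⟨_, mem_lset_zero.2 hi₀⟩
    rw [Finset.sum_eq_single_of_mem m (by simpa using hmB),
      Finset.sum_eq_add_of_mem (m, 0) (m, 1) (by simpa using hmA) (by simpa using hmD)
        (by simp), insert_lset_zero, insert_lset_one] at h
    · exact F2.eq_of_add_eq_zero h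
    · rintro ⟨i, s⟩ ha ⟨h1, h2⟩
      by_contra hc
      obtain ⟨-, v2, v3⟩ := van _ _ hc i₀ (mem_insert_of_mem (mem_lset_zero.2 hi₀)) D hD
        (fun i hi => mem_insert_of_mem (mem_lset_one.2 hi))
      have him : i ≠ m := by
        rintro rfl
        rcases F2_cases s with rfl | rfl
        · exact h1 rfl
        · exact h2 rfl
      rw [mem_compl] at ha
      rcases hall i him with h | h | h
      · rcases F2_cases s with rfl | rfl
        · exact ha (mem_lset_zero.2 h)
        · exact v3 i (mem_insert_of_mem (mem_lset_zero.2 h)) (mem_insert_self _ _)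
      · exact v2 i h s (mem_insert_self _ _)
      · rcases F2_cases s with rfl | rfl
        · exact v3 i (mem_insert_self _ _) (mem_insert_of_mem (mem_lset_one.2 h))
        · exact ha (mem_lset_one.2 h)
    · intro j hj hjm
      by_contra hc
      obtain ⟨-, v2, -⟩ := van _ _ hc i₀ (mem_lset_zero.2 hi₀) D hD
        (fun i hi => mem_lset_one.2 hi)
      rcases hall j hjm with h | h | h
      · exact v2 j (mem_insert_self _ _) 0 (mem_lset_zero.2 h)
      · exact (mem_compl.1 hj) h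
      · exact v2 j (mem_insert_self _ _) 1 (mem_lset_one.2 h)
  · intro A D m hA hD hmA hDe
    obtain ⟨i₀, hi₀⟩ := hA
    have hmD : m ∉ D := by simp [hDe]
    have hall : ∀ i, i ≠ m → i ∈ A ∨ i ∈ D := by
      intro i hi
      by_cases h : i ∈ A
      · exact Or.inl h
      · exact Or.inr (by simp [hDe, hi, h])
    have h := base (lset A D) ⟨_, mem_lset_zero.2 hi₀⟩
    rw [Finset.sum_eq_single_of_mem m (mem_univ _),
      Finset.sum_eq_add_of_mem (m, 0) (m, 1) (by simpa using hmA) (by simpa using hmD)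
        (by simp), insert_lset_zero, insert_lset_one] at h
    · have e : insert m D = Aᶜ := by
        rw [hDe]
        ext i
        by_cases hi : i = m
        · simp [hi, hmA]
        · simp [hi]
      rw [e] at h
      simp only []
      rw [h, fac, hDe, fac]
    · rintro ⟨i, s⟩ ha ⟨h1, h2⟩
      by_contra hc
      obtain ⟨l, hl, -, -, v, hv, hv'⟩ := hI2 _ hc
      obtain ⟨l₁, l₂, -, s₂, -, h₂⟩ := cup_ne_zero hl
      have hΛ : ∀ a ∈ insert (i, s) (lset A D), v ∈ PSet Θ c.F a := by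
        intro a ha
        obtain ⟨x, hx, rfl⟩ := hLmem _ _ h₂ a ha
        exact (hv' x (s₂ hx)).1
      have hpos := theta_norm_pos hΘ hv
      have v4 : ∀ j, (j, 0) ∈ insert (i, s) (lset A D) → (j, 1) ∉ insert (i, s) (lset A D) :=
        fun j h0 h1 => Finset.disjoint_left.1 (hdisj v _ (-‖Θ v‖) (by linarith))
          (hP0 v j (hΛ _ h0)) (hP1 v j (hΛ _ h1))
      have him : i ≠ m := by
        rintro rfl
        rcases F2_cases s with rfl | rfl
        · exact h1 rfl
        · exact h2 rfl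
      rw [mem_compl] at ha
      rcases hall i him with h | h
      · rcases F2_cases s with rfl | rfl
        · exact ha (mem_lset_zero.2 h)
        · exact v4 i (mem_insert_of_mem (mem_lset_zero.2 h)) (mem_insert_self _ _)
      · rcases F2_cases s with rfl | rfl
        · exact v4 i (mem_insert_self _ _) (mem_insert_of_mem (mem_lset_one.2 h))
        · exact ha (mem_lset_one.2 h)
    · intro j _ hjm
      by_contra hc
      obtain ⟨-, v2, -⟩ := van _ _ hc i₀ (mem_lset_zero.2 hi₀) D hD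
        (fun i hi => mem_lset_one.2 hi)
      rcases hall j hjm with h | h
      · exact v2 j (mem_singleton_self _) 0 (mem_lset_zero.2 h)
      · exact v2 j (mem_singleton_self _) 1 (mem_lset_one.2 h)
  · intro A B D hA hD hB
    obtain ⟨i₀, hi₀⟩ := hA
    by_contra hc
    obtain ⟨v1, -, -⟩ := van _ _ hc i₀ (mem_lset_zero.2 hi₀) D hD (fun i hi => mem_lset_one.2 hi)
    omega

/-- The main parity relation. -/
theorem key {A B : Finset (Fin 10)} (hA : A.Nonempty) (hAB : Disjoint A B)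
    (hD : 2 ≤ c.d (A ∪ B)ᶜ) (hB2 : 2 ≤ c.d B) : ∑ B' ∈ B.powerset, c.o (A ∪ B') = 0 := by
  obtain ⟨cc, h1, h2, h3⟩ := c.key_aux
  have main : ∀ B : Finset (Fin 10), B.Nonempty → ∀ A : Finset (Fin 10), A.Nonempty →
      Disjoint A B → 2 ≤ c.d (A ∪ B)ᶜ → cc A B (A ∪ B)ᶜ = ∑ B' ∈ B.powerset, c.o (A ∪ B') := by
    intro B hB
    induction hB using Finset.Nonempty.cons_induction with
    | singleton m =>
      intro A hA hAB hD
      have hm : m ∉ A := by simpa using hAB
      have e : A ∪ {m} = insert m A := by ext; simp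
      rw [h2 A _ m hA hD hm (by rw [e])]
      have : ({m} : Finset (Fin 10)).powerset = {∅, {m}} := by
        ext s; simp [subset_singleton_iff]
      rw [this, sum_pair (singleton_ne_empty m).symm, union_empty, e, add_comm]
    | cons m B hmB hB ih =>
      intro A hA hAB hD
      rw [cons_eq_insert] at *
      have hmA : m ∉ A := fun h => Finset.disjoint_left.1 hAB h (mem_insert_self _ _)
      have hAB' : Disjoint A B := hAB.mono_right (subset_insert _ _)
      have e1 : (A ∪ insert m B)ᶜ = (insert m A ∪ B)ᶜ := by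
        congr 1; ext; simp
      have e2 : insert m (A ∪ insert m B)ᶜ = (A ∪ B)ᶜ := by
        ext i
        by_cases hi : i = m
        · simp [hi, hmA, hmB]
        · simp [hi]
      rw [h1 A B _ m hA hB hD hmA hmB (by simp) (by
        intro i hi
        by_cases h1 : i ∈ A
        · exact Or.inl h1
        · by_cases h2 : i ∈ B
          · exact Or.inr (Or.inl h2)
          · exact Or.inr (Or.inr (by simp [hi, h1, h2]))), e2, ih A hA hAB'
          (e2 ▸ hD.trans (c.d_mono (subset_insert _ _))), e1,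
        ih (insert m A) (insert_nonempty _ _) (by simpa [hmB] using hAB') (e1 ▸ hD),
        sum_powerset_insert hmB, add_comm]
      congr 1
      refine Finset.sum_congr rfl fun B' _ => ?_
      congr 1
      ext; simp
  have hB : B.Nonempty := by
    rw [nonempty_iff_ne_empty]
    rintro rfl
    have := c.d_le_one (S := ∅) (by simp)
    omega
  rw [← main B hB A hA hAB hD]
  exact h3 _ _ _ hA hD hB2

end Cover

end Crest.Agent.R50
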