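import Mathlib
import Crest.Agent.R50.Slice
import Crest.Agent.R50.Loop
import Crest.Agent.R50.Search

/-! No cover of the unit sphere of `ℝ⁴` by ten symmetric compact sets without orthogonal pairs. -/

namespace Crest.Agent.R50

open Crest.Agent.Lib.KyFan Module Finset
open scoped RealInnerProductSpace

variable {E : Type} [NormedAddCommGroup E] [InnerProductSpace ℝ E] [FiniteDimensional ℝ E]

namespace Cover

set_option linter.unusedSectionVars false

variable (c : Cover E)

theorem o_small {S : Finset (Fin 10)} (h : S.card ≤ 2) : c.o S = 0 :=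
  if_neg (by have := c.d_le_one h; omega)

theorem o_of_le {S : Finset (Fin 10)} (h : 2 ≤ c.d S) : c.o S = 1 := if_pos h

theorem o_of_subset {S P : Finset (Fin 10)} (h : c.d P ≤ 1) (hS : S ⊆ P) : c.o S = 0 :=
  if_neg (by have := c.d_mono hS; omega)

theorem o_eq_one {S : Finset (Fin 10)} (h : c.o S ≠ 0) : 2 ≤ c.d S := by
  by_contra hc
  exact h (if_neg hc)

theorem powerset_single (z : Fin 10) (f : Finset (Fin 10) → F2) :
    ∑ B ∈ ({z} : Finset (Fin 10)).powerset, f B = f ∅ + f {z} := by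
  have : ({z} : Finset (Fin 10)).powerset = {∅, {z}} := by
    ext s; simp [subset_singleton_iff]
  rw [this, sum_pair (singleton_ne_empty z).symm]

theorem tg_aux {x a b z : Fin 10} (h1 : x ≠ a) (h2 : x ≠ b) (h3 : x ≠ z) (h4 : a ≠ b) (h5 : a ≠ z)
    (h6 : b ≠ z) (h : 2 ≤ c.d {a, b, z}) : c.o {x, a, b} + c.o {x, a, z} + c.o {x, b, z} = 1 := by
  have hk := c.key (A := {x}) (B := {a, b, z}) (singleton_nonempty x) (by simp [h1, h2, h3])
    (c.two_le_d (by
      rw [card_compl, Fintype.card_fin]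
      have : ({x} ∪ {a, b, z} : Finset (Fin 10)).card ≤ 4 := card_le_four
      omega)) h
  rw [sum_powerset_insert (by simp [h4, h5]), sum_powerset_insert (by simp [h6]),
    sum_powerset_insert (by simp [h6])] at hk
  simp only [powerset_single, ← insert_eq, insert_empty_eq] at hk
  rw [c.o_small (S := {x}) (by simp), c.o_small (S := {x, z}) card_le_two,
    c.o_small (S := {x, b}) card_le_two, c.o_small (S := {x, a}) card_le_two,
    c.o_of_le (S := {x, a, b, z}) (h.trans (c.d_mono (subset_insert _ _)))] at hk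
  apply F2.eq_of_add_eq_zero
  linear_combination (exp := 1) hk

theorem o_swap1 (a b e : Fin 10) : c.o {a, b, e} = c.o {b, a, e} := by rw [insert_comm]
theorem o_swap2 (a b e : Fin 10) : c.o {a, b, e} = c.o {a, e, b} := by rw [pair_comm b e]

theorem o_dup1 (a e : Fin 10) : c.o {a, a, e} = 0 := c.o_small (by simpa using card_le_two)
theorem o_dup2 (a e : Fin 10) : c.o {a, e, a} = 0 := by rw [o_swap2, o_dup1]
theorem o_dup3 (a e : Fin 10) : c.o {e, a, a} = 0 := by rw [o_swap1, o_dup2]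

/-- the two-graph property -/
theorem tg (x a b z : Fin 10) :
    c.o {a, b, z} = c.o {x, a, b} + c.o {x, b, z} + c.o {x, a, z} := by
  by_cases h1 : x = a
  · subst h1; rw [o_dup1, o_dup1]; ring
  by_cases h2 : x = b
  · subst h2; rw [o_dup1, o_dup2, o_swap1]; ring
  by_cases h3 : x = z
  · subst h3; rw [o_dup2, o_dup2, o_swap2, o_swap1]; ring
  by_cases h4 : a = b
  · subst h4; rw [o_dup1, o_dup3, zero_add, F2.add_self]
  by_cases h5 : a = z
  · subst h5; rw [o_dup2, o_dup3, add_zero, c.o_swap2 x b a, F2.add_self]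
  by_cases h6 : b = z
  · subst h6; rw [o_dup3, o_dup3, add_zero, F2.add_self]
  by_cases k1 : c.o {a, b, z} = 0
  swap
  · rw [F2.eq_one_of_ne_zero k1, ← c.tg_aux h1 h2 h3 h4 h5 h6 (c.o_eq_one k1)]; ring
  by_cases k2 : c.o {x, a, b} = 0
  swap
  · have := c.tg_aux (Ne.symm h3) (Ne.symm h5) (Ne.symm h6) h1 h2 h4 (c.o_eq_one k2)
    rw [c.o_swap1 z x a, c.o_swap2 x z a, c.o_swap1 z x b, c.o_swap2 x z b, c.o_swap1 z a b,
      c.o_swap2 a z b, k1] at this
    rw [k1, F2.eq_one_of_ne_zero k2]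
    have h11 := F2.add_self 1
    linear_combination (exp := 1) -this - h11
  by_cases k3 : c.o {x, b, z} = 0
  swap
  · have := c.tg_aux (Ne.symm h1) h4 h5 h2 h3 h6 (c.o_eq_one k3)
    rw [c.o_swap1 a x b, c.o_swap1 a x z, k1] at this
    rw [k1, F2.eq_one_of_ne_zero k3]
    have h11 := F2.add_self 1
    linear_combination (exp := 1) -this - h11
  by_cases k4 : c.o {x, a, z} = 0
  swap
  · have := c.tg_aux (Ne.symm h2) (Ne.symm h4) h6 h1 h3 h5 (c.o_eq_one k4)
    rw [c.o_swap1 b x a, c.o_swap2 x b a, c.o_swap1 b x z, c.o_swap1 b a z, k1] at this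
    rw [k1, F2.eq_one_of_ne_zero k4]
    have h11 := F2.add_self 1
    linear_combination (exp := 1) -this - h11
  rw [k1, k2, k3, k4]; ring

/-- the five-set relation -/
theorem five {x a b e z : Fin 10} (h1 : x ≠ a) (h2 : x ≠ b) (h3 : x ≠ e) (h4 : x ≠ z)
    (h5 : a ≠ b) (h6 : a ≠ e) (h7 : a ≠ z) (h8 : b ≠ e) (h9 : b ≠ z) (h10 : e ≠ z)
    (h : c.o {x, a, b} + c.o {x, a, e} + c.o {x, a, z} + c.o {x, b, e} + c.o {x, b, z} +
      c.o {x, e, z} = 0) :
    c.d {a, b, e, z} ≤ 1 ∨ c.d {x, a, b, e} ≤ 1 ∨ c.d {x, a, b, z} ≤ 1 ∨ c.d {x, a, e, z} ≤ 1 ∨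
      c.d {x, b, e, z} ≤ 1 := by
  by_contra hc
  push Not at hc
  obtain ⟨k1, k2, k3, k4, k5⟩ := hc
  have hk := c.key (A := {x}) (B := {a, b, e, z}) (singleton_nonempty x) (by simp [h1, h2, h3, h4])
    (c.two_le_d (by
      rw [card_compl, Fintype.card_fin]
      have : ({x} ∪ {a, b, e, z} : Finset (Fin 10)).card ≤ 5 := card_le_five
      omega)) k1
  simp only [sum_powerset_insert (show a ∉ ({b, e, z} : Finset (Fin 10)) by simp [h5, h6, h7]),
    sum_powerset_insert (show b ∉ ({e, z} : Finset (Fin 10)) by simp [h8, h9]),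
    sum_powerset_insert (show e ∉ ({z} : Finset (Fin 10)) by simp [h10]),
    powerset_single, ← insert_eq, insert_empty_eq] at hk
  rw [c.o_small (S := {x}) (by simp), c.o_small (S := {x, z}) card_le_two,
    c.o_small (S := {x, b}) card_le_two, c.o_small (S := {x, a}) card_le_two,
    c.o_small (S := {x, e}) card_le_two, c.o_of_le k2, c.o_of_le k3, c.o_of_le k4, c.o_of_le k5,
    c.o_of_le (S := {x, a, b, e, z}) (le_trans k1 (c.d_mono (subset_insert _ _)))] at hk
  have h11 := F2.add_self 1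
  have : (1 : F2) = 0 := by linear_combination (exp := 1) hk - h - 2 * h11
  exact one_ne_zero this

theorem exists_odd : ∃ a b e : Fin 10, a ≠ b ∧ b ≠ e ∧ a ≠ e ∧ 2 ≤ c.d {a, b, e} := by
  by_contra hc
  push Not at hc
  have h0 : ∀ a b e : Fin 10, a ≠ b → b ≠ e → a ≠ e → c.o {a, b, e} = 0 := fun a b e h1 h2 h3 =>
    if_neg (not_le.2 (hc a b e h1 h2 h3))
  have : ∃ P : Finset (Fin 10), P.card = 4 ∧ c.d P ≤ 1 := by
    rcases c.five (x := 0) (a := 1) (b := 2) (e := 3) (z := 4) (by decide) (by decide) (by decide)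
      (by decide) (by decide) (by decide) (by decide) (by decide) (by decide) (by decide)
      (by rw [h0, h0, h0, h0, h0, h0] <;> decide) with h | h | h | h | h <;>
    exact ⟨_, by decide, h⟩
  obtain ⟨P, hP, hP'⟩ := this
  obtain ⟨T, hT, hT'⟩ := c.exists_odd_triple hP hP'
  obtain ⟨a, b, e, h1, h2, h3, rfl⟩ := card_eq_three.1 hT
  exact absurd hT' (not_le.2 (hc a b e h1 h3 h2))

set_option synthInstance.maxSize 2000 in
theorem ok4_of : ∀ x1 x2 x3 x4 x5 x6 : F2,
    ¬ (x1 = 0 ∧ x2 = 0 ∧ x3 = 0 ∧ x4 = 0 ∧ x5 = 0 ∧ x6 = 0) →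
    (x1 + x2 + x3 + x4 + x5 + x6 = 0 →
      (x1 + x4 + x2 = 0 ∧ x1 + x5 + x3 = 0 ∧ x2 + x6 + x3 = 0) ∨ (x1 = 0 ∧ x2 = 0 ∧ x4 = 0) ∨
      (x1 = 0 ∧ x3 = 0 ∧ x5 = 0) ∨ (x2 = 0 ∧ x3 = 0 ∧ x6 = 0) ∨ (x4 = 0 ∧ x5 = 0 ∧ x6 = 0)) →
    ok4 (decide (x1 = 1)) (decide (x2 = 1)) (decide (x3 = 1)) (decide (x4 = 1)) (decide (x5 = 1))
      (decide (x6 = 1)) = true := by decide +kernel

theorem ok5_of : ∀ x1 x2 x3 x4 x5 x6 x7 x8 x9 x10 : F2,
    ¬ (x1 + x5 + x2 = 0 ∧ x1 + x6 + x3 = 0 ∧ x1 + x7 + x4 = 0 ∧ x2 + x8 + x3 = 0 ∧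
      x2 + x9 + x4 = 0 ∧ x3 + x10 + x4 = 0) →
    ok5 (decide (x1 = 1)) (decide (x2 = 1)) (decide (x3 = 1)) (decide (x4 = 1)) (decide (x5 = 1))
      (decide (x6 = 1)) (decide (x7 = 1)) (decide (x8 = 1)) (decide (x9 = 1))
      (decide (x10 = 1)) = true := by decide +kernel

theorem no_cover (col : E → Fin 10) (hcol : ∀ x, ‖x‖ = 1 → x ∈ c.F (col x))
    (hneg : ∀ x, col (-x) = col x) : False := by
  let s : Fin 10 → Fin 10 → F2 := fun a b => c.o {0, a, b}
  have hsymm : ∀ a b, s a b = s b a := fun a b => c.o_swap2 0 a b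
  have hdiag : ∀ a, s a a = 0 := fun a => c.o_dup3 a 0
  have hs : ∀ a b e, c.o {a, b, e} = s a b + s b e + s a e := fun a b e => c.tg 0 a b e
  obtain ⟨a₀, b₀, e₀, hab, hbe, hae, hT⟩ := c.exists_odd
  -- no even five-set
  have ne5 : ∀ x a b e z : Fin 10, ({x, a, b, e, z} : Finset (Fin 10)).card = 5 →
      ¬ (c.o {x, a, b} = 0 ∧ c.o {x, a, e} = 0 ∧ c.o {x, a, z} = 0 ∧ c.o {x, b, e} = 0 ∧
        c.o {x, b, z} = 0 ∧ c.o {x, e, z} = 0) := by
    rintro x a b e z hcard ⟨k1, k2, k3, k4, k5, k6⟩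
    refine c.loop col hcol hneg s hsymm hdiag
      (fun a b e h => (hs a b e).symm.trans (c.o_of_subset h subset_rfl))
      (c.two_le_d hcard.ge) (s x) ?_ hab hbe hae hT ((hs _ _ _).symm.trans (c.o_of_le hT))
    have : ∀ u ∈ ({x, a, b, e, z} : Finset (Fin 10)), ∀ v ∈ ({x, a, b, e, z} : Finset (Fin 10)),
        c.o {x, u, v} = 0 := by
      intro u hu v hv
      simp only [mem_insert, mem_singleton] at hu hv
      rcases hu with rfl | rfl | rfl | rfl | rfl <;> rcases hv with rfl | rfl | rfl | rfl | rfl <;>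
        first
          | with_reducible exact c.o_dup1 _ _
          | with_reducible exact c.o_dup2 _ _
          | with_reducible exact c.o_dup3 _ _
          | with_reducible assumption
          | (rw [o_swap2]; with_reducible assumption)
    intro u hu v hv
    have h := this u hu v hv
    rw [hs] at h
    apply F2.eq_of_add_eq_zero
    linear_combination (exp := 1) h
  let ι : ℕ → Fin 10 := fun a => Fin.ofNat 10 (a + 1)
  have hι : ∀ a < 8, ∀ b < a, ι a ≠ ι b := by
    intro a ha b hb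
    interval_cases a <;> interval_cases b <;> decide
  have hι0 : ∀ a < 8, 0 ≠ ι a := by
    intro a ha
    interval_cases a <;> decide
  have card5 : ∀ x a b e z : Fin 10, x ≠ a → x ≠ b → x ≠ e → x ≠ z → a ≠ b → a ≠ e → a ≠ z →
      b ≠ e → b ≠ z → e ≠ z → ({x, a, b, e, z} : Finset (Fin 10)).card = 5 := by
    intro x a b e z h1 h2 h3 h4 h5 h6 h7 h8 h9 h10
    rw [card_insert_of_notMem (by simp [h1, h2, h3, h4]), card_insert_of_notMem (by simp [h5, h6, h7]),
      card_insert_of_notMem (by simp [h8, h9]), card_pair h10]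
  apply no_graph (fun a b => decide (s (ι a) (ι b) = 1))
  · intro a ha b hb e he z hz
    have n1 := hι0 a ha
    have n2 := hι0 b (by omega)
    have n3 := hι0 e (by omega)
    have n4 := hι0 z (by omega)
    have n5 := hι a ha b hb
    have n6 := hι a ha e (by omega)
    have n7 := hι a ha z (by omega)
    have n8 := hι b (by omega) e he
    have n9 := hι b (by omega) z (by omega)
    have n10 := hι e (by omega) z hz
    apply ok4_of _ _ _ _ _ _ (ne5 0 _ _ _ _ (card5 _ _ _ _ _ n1 n2 n3 n4 n5 n6 n7 n8 n9 n10))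
    intro h
    rcases c.five n1 n2 n3 n4 n5 n6 n7 n8 n9 n10 h with h | h | h | h | h
    · refine Or.inl ⟨?_, ?_, ?_⟩ <;> refine (hs _ _ _).symm.trans (c.o_of_subset h ?_) <;>
        simp [insert_subset_iff]
    · refine Or.inr (Or.inl ⟨?_, ?_, ?_⟩) <;> refine c.o_of_subset h ?_ <;>
        simp [insert_subset_iff]
    · refine Or.inr (Or.inr (Or.inl ⟨?_, ?_, ?_⟩)) <;> refine c.o_of_subset h ?_ <;>
        simp [insert_subset_iff]
    · refine Or.inr (Or.inr (Or.inr (Or.inl ⟨?_, ?_, ?_⟩))) <;> refine c.o_of_subset h ?_ <;>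
        simp [insert_subset_iff]
    · refine Or.inr (Or.inr (Or.inr (Or.inr ⟨?_, ?_, ?_⟩))) <;> refine c.o_of_subset h ?_ <;>
        simp [insert_subset_iff]
  · intro a ha b hb e he z hz w hw
    apply ok5_of
    simp only [← hs]
    exact ne5 _ _ _ _ _ (card5 _ _ _ _ _ (hι a ha b hb) (hι a ha e (by omega))
      (hι a ha z (by omega)) (hι a ha w (by omega)) (hι b (by omega) e he)
      (hι b (by omega) z (by omega)) (hι b (by omega) w (by omega)) (hι e (by omega) z hz)
      (hι e (by omega) w (by omega)) (hι z (by omega) w hw))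

end Cover

/-- There is no symmetric ten-colouring of the unit sphere of a four-dimensional space in which
equally coloured vectors are uniformly far from orthogonal. -/
theorem no_colouring (hE : finrank ℝ E = 4) (col : E → Fin 10) (hneg : ∀ x, col (-x) = col x)
    {δ : ℝ} (hδ : 0 < δ)
    (h : ∀ x y : E, ‖x‖ = 1 → ‖y‖ = 1 → col x = col y → δ ≤ ⟪x, y⟫ ^ 2) : False := by
  let A : Fin 10 → Set E := fun i => {x | ‖x‖ = 1 ∧ col x = i}
  have hsub : ∀ i, closure (A i) ⊆ Metric.sphere 0 1 := fun i =>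
    closure_minimal (fun x hx => by simpa using hx.1) Metric.isClosed_sphere
  let c : Cover E :=
    { F := fun i => closure (A i)
      cpt := fun i => (isCompact_sphere 0 1).of_isClosed_subset isClosed_closure (hsub i)
      one := fun i x hx => by simpa using hsub i hx
      cov := fun x hx => ⟨col x, subset_closure ⟨hx, rfl⟩⟩
      orth := by
        intro i x hx y hy h0
        have hcl : IsClosed {p : E × E | δ ≤ ⟪p.1, p.2⟫ ^ 2} :=
          isClosed_le continuous_const (by fun_prop)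
        have : closure (A i ×ˢ A i) ⊆ {p : E × E | δ ≤ ⟪p.1, p.2⟫ ^ 2} :=
          closure_minimal (fun p hp => h _ _ hp.1.1 hp.2.1 (hp.1.2.trans hp.2.2.symm)) hcl
        have h2 := this (a := (x, y)) (by rw [closure_prod_eq]; exact ⟨hx, hy⟩)
        simp only [Set.mem_ofPred_eq, h0] at h2
        linarith
      dim := hE }
  exact c.no_cover col (fun x hx => subset_closure ⟨hx, rfl⟩) hneg

end Crest.Agent.R50
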